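import Vale.Agent.P275NA.Glob
import Vale.Agent.P275HK.Max
import Vale.Agent.P275GC.Int

/-! The error in the perturbed equation and the comparison of two approximate solutions. -/

set_option linter.unusedSectionVars false

open scoped Matrix.Norms.Operator Topology ComplexOrder ContDiff ComplexConjugate
open Filter Set Matrix Complex Metric
open Vale.Agent.P281Z.Hm Vale.Agent.P275NA Vale.Agent.P275GC Vale.Agent.P275HK

noncomputable section

namespace Vale.Agent.P275FR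

section pt

variable {n : Type} [Fintype n] [DecidableEq n] {ρ c ε t : ℝ} {k h h' K K' B E P : Mx n}

/-- the right hand side -/
def rh (ρ c ε : ℝ) (k h : Mx n) : Mx n :=
  (ρ : ℂ) • (((c + ε : ℝ) : ℂ) • 1 - (ε : ℂ) • (k⁻¹ * h))

/-- the error in the equation -/
def er (ρ c ε : ℝ) (k h K : Mx n) : Mx n := ((ρ : ℂ)⁻¹) • (h * (rh ρ c ε k h - K))

theorem er_solve (hρ : ρ ≠ 0) (hh : IsUnit h.det) :
    K = rh ρ c ε k h - (ρ : ℂ) • (h⁻¹ * er ρ c ε k h K) := by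
  rw [er, Matrix.mul_smul, smul_smul, mul_inv_cancel₀ (ofReal_ne_zero.2 hρ), one_smul,
    nonsing_inv_mul_cancel_left _ _ hh, sub_sub_cancel]

theorem er_herm (hk : k.PosDef) (hh : h.PosDef) (hK : ad h h K = K) :
    (er ρ c ε k h K)ᴴ = er ρ c ε k h K := by
  have e : Kᴴ * h = h * K := by
    conv_rhs => rw [← hK, ad, Matrix.mul_assoc, mul_nonsing_inv_cancel_left _ _ (pd_det hh)]
  simp only [er, rh, Matrix.mul_sub, Matrix.mul_smul, conjTranspose_smul, conjTranspose_sub,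
    conjTranspose_mul, hh.1.eq, hk.inv.1.eq, e, star_inv₀, RCLike.star_def, conj_ofReal,
    Matrix.mul_one, Matrix.mul_assoc]

theorem er_tr {δ : ℝ} (hδ : δ ≠ 0) (hP : P.det ≠ 0) :
    er (δ * ρ) c ε (Pᴴ * k * P) (Pᴴ * h * P) ((δ : ℂ) • (P⁻¹ * K * P)) =
      Pᴴ * er ρ c ε k h K * P := by
  have u := isUnit_iff_ne_zero.2 hP
  have e : rh (δ * ρ) c ε (Pᴴ * k * P) (Pᴴ * h * P) = (δ : ℂ) • (P⁻¹ * rh ρ c ε k h * P) := by
    simp only [rh, Matrix.mul_inv_rev, Matrix.mul_assoc, nonsing_inv_mul_cancel_left _ _ (ct_det hP),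
      Matrix.mul_smul, Matrix.smul_mul, Matrix.mul_sub, Matrix.sub_mul, Matrix.one_mul,
      nonsing_inv_mul _ u, ofReal_mul, mul_smul]
  rw [er, er, e, ← smul_sub, ← Matrix.sub_mul, ← Matrix.mul_sub, Matrix.mul_smul, smul_smul,
    ofReal_mul, mul_inv, mul_right_comm, inv_mul_cancel₀ (ofReal_ne_zero.2 hδ), one_mul]
  simp only [Matrix.mul_assoc, mul_nonsing_inv_cancel_left _ _ u, Matrix.mul_smul, Matrix.smul_mul]

theorem inv_diff (hh : IsUnit h.det) (hh' : IsUnit h'.det) (e : h' = h + (t : ℂ) • B) :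
    h⁻¹ * h' = 1 + (t : ℂ) • (h⁻¹ * B) ∧ h'⁻¹ * h = 1 - (t : ℂ) • (h'⁻¹ * B) ∧
      h⁻¹ * B - h'⁻¹ * B = (t : ℂ) • (h⁻¹ * B * h'⁻¹ * B) := by
  have e1 : h⁻¹ * h' = 1 + (t : ℂ) • (h⁻¹ * B) := by
    conv_lhs => rw [e, Matrix.mul_add, nonsing_inv_mul _ hh, Matrix.mul_smul]
  refine ⟨e1, ?_, ?_⟩
  · rw [← nonsing_inv_mul _ hh', ← Matrix.mul_smul, ← Matrix.mul_sub, eq_sub_of_add_eq e.symm]
  · have := congrArg (· * h'⁻¹ * B) e1
    simp only [Matrix.add_mul, Matrix.one_mul, Matrix.smul_mul,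
      mul_nonsing_inv_cancel_right _ _ hh'] at this
    exact sub_eq_of_eq_add' this

theorem sg_eq (hh : IsUnit h.det) (hh' : IsUnit h'.det) (e : h' = h + (t : ℂ) • B) :
    nq h h' 1 + nq h' h 1 = 2 * Fintype.card n + t ^ 2 * (trace (h⁻¹ * B * h'⁻¹ * B)).re := by
  obtain ⟨e1, e2, e3⟩ := inv_diff hh hh' e
  have := congrArg (fun X => (trace X).re) e3
  simp only [trace_sub, trace_smul, sub_re, smul_eq_mul, re_ofReal_mul] at this
  simp only [nq, ad, conjTranspose_one, Matrix.mul_one, e1, e2, trace_add, trace_sub, trace_one,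
    trace_smul, add_re, sub_re, smul_eq_mul, re_ofReal_mul, natCast_re]
  linear_combination t * this

theorem cmp_alg (hh : IsUnit h.det) (hh' : IsUnit h'.det) (e : h' = h + (t : ℂ) • B)
    (hK : K = rh ρ c ε k h) (hK' : K' = rh ρ c ε k h' - (ρ : ℂ) • (h'⁻¹ * ((t : ℂ) • E))) :
    (trace (h⁻¹ * h' * K)).re - (trace (h⁻¹ * h' * K')).re +
      ((trace (h'⁻¹ * h * K')).re - (trace (h'⁻¹ * h * K)).re) =
      t ^ 2 * ρ * (trace ((h⁻¹ + h'⁻¹) * B * ((ε : ℂ) • (k⁻¹ * B) + h'⁻¹ * E))).re := by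
  obtain ⟨e1, e2, -⟩ := inv_diff hh hh' e
  have e4 : K - K' = ((t * ρ : ℝ) : ℂ) • ((ε : ℂ) • (k⁻¹ * B) + h'⁻¹ * E) := by
    rw [hK, hK', rh, rh]
    conv_lhs => rw [show k⁻¹ * h' = k⁻¹ * h + (t : ℂ) • (k⁻¹ * B) by
      rw [e, Matrix.mul_add, Matrix.mul_smul], Matrix.mul_smul]
    push_cast
    module
  have e5 : h⁻¹ * h' - h'⁻¹ * h = (t : ℂ) • ((h⁻¹ + h'⁻¹) * B) := by
    rw [e1, e2, Matrix.add_mul]; module
  have e6 : (h⁻¹ * h' - h'⁻¹ * h) * (K - K') = ((t ^ 2 * ρ : ℝ) : ℂ) •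
      ((h⁻¹ + h'⁻¹) * B * ((ε : ℂ) • (k⁻¹ * B) + h'⁻¹ * E)) := by
    rw [e4, e5, Matrix.smul_mul, Matrix.mul_smul, smul_smul]
    congr 1; push_cast; ring
  have := congrArg (fun X => (trace X).re) e6
  simp only [Matrix.sub_mul, Matrix.mul_sub, trace_sub, trace_smul, sub_re, smul_eq_mul,
    re_ofReal_mul] at this
  linarith

/-- the maximum principle for two metrics -/
theorem cmp_pt {h h' b : ℂ → Mx n} {z : ℂ} (H : MetAt h z) (H' : MetAt h' z)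
    (hm : IsLocalMax (fun x => nq (h x) (h' x) 1 + nq (h' x) (h x) 1) z) :
    (trace ((h z)⁻¹ * h' z * hk h b z)).re - (trace ((h z)⁻¹ * h' z * hk h' b z)).re +
      ((trace ((h' z)⁻¹ * h z * hk h' b z)).re - (trace ((h' z)⁻¹ * h z * hk h b z)).re) ≤ 0 := by
  have e : (1 : Mx n) * b z = b z * 1 := by rw [Matrix.one_mul, Matrix.mul_one]
  obtain ⟨a1, a2, -⟩ := homk n n h b h' b (fun _ => 1) z H H' analyticAt_const e
  obtain ⟨b1, b2, -⟩ := homk n n h' b h b (fun _ => 1) z H' H analyticAt_const e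
  have := lp_max (a1.add b1) hm
  rw [P275HK.lp_add a1 b1, a2, b2] at this
  have p := MetAt.pd H
  have p' := MetAt.pd H'
  simp only [ad, conjTranspose_one, Matrix.mul_one, Matrix.one_mul] at this
  linarith [nq_nonneg p p' (dz (fun _ : ℂ => (1 : Mx n)) z + cn h' z - cn h z),
    nq_nonneg p p' ((h' z)⁻¹ * (b z)ᴴ * h' z - (h z)⁻¹ * (b z)ᴴ * h z),
    nq_nonneg p' p (dz (fun _ : ℂ => (1 : Mx n)) z + cn h z - cn h' z),
    nq_nonneg p' p ((h z)⁻¹ * (b z)ᴴ * h z - (h' z)⁻¹ * (b z)ᴴ * h' z)]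

theorem zero_of_tr (hh : h.PosDef) (hk : k.PosDef) (hB : Bᴴ = B)
    (h0 : (trace (h⁻¹ * B * k⁻¹ * B)).re ≤ 0) : B = 0 :=
  nq_zero hh hk.inv (le_antisymm (by rwa [nq, ad, hB]) (nq_nonneg hh hk.inv B))

end pt

variable {C : Type} [TopologicalSpace C] [T2Space C] {A : At C} {n : ℕ} {l : Cy A ℂ} {w : Fm A ℝ}
  {g : Cy A (Mn n)} {a k h : Fm A (Mn n)} {c ε : ℝ} {i j : Fin A.N} {z : ℂ}

theorem met_at (H : A.MtM ∞ g h) (hz : z ∈ ball (0 : ℂ) A.R) (i : Fin A.N) : MetAt (h i) z :=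
  ⟨(H.sm.at hz i).of_le (by norm_cast),
    eventually_of_mem (isOpen_ball.mem_nhds hz) (H.pos i)⟩

theorem HK_tr (T : Tw A l w) (G : Hig A l g a) (H : A.MtM ∞ g h) (hz : z ∈ A.O i j) :
    HK A w a h i z = (normSq (A.d i j z) : ℂ) •
      ((g j i (A.tr i j z))⁻¹ * HK A w a h j (A.tr i j z) * g j i (A.tr i j z)) := by
  have wi := T.pos i z hz.1
  have wj := T.pos j _ (At.tr_ball hz)
  have sj : ((√(w j (A.tr i j z)) : ℝ) : ℂ) ≠ 0 := ofReal_ne_zero.2 (Real.sqrt_pos.2 wj).ne'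
  obtain ⟨-, -, e, -⟩ := chg (Fin n) (h j) (sa A w a j) (fun x => g j i (A.tr i j x)) (A.tr i j) z
    (At.an_tr hz) (met_at H (At.tr_ball hz) j) ((G.cc.an (At.tr_mem hz)).comp (At.an_tr hz))
    (G.cc.det_ne (At.tr_mem hz))
  have e1 : h i =ᶠ[𝓝 z] fun x => (g j i (A.tr i j x))ᴴ * h j (A.tr i j x) * g j i (A.tr i j x) :=
    eventually_of_mem (At.O_nhds hz) fun x hx => by
      have := H.tr j i _ (At.tr_mem hx)
      rwa [At.tr_inv hx] at this
  have e2 := e (sa A w a i) ((√(w i z) : ℝ) * l i j z / (√(w j (A.tr i j z)) : ℝ)) (by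
    have := T.tr i j z hz
    rw [normSq_eq_norm_sq, normSq_eq_norm_sq] at this
    rw [← sq_eq_sq₀ (norm_nonneg _) (norm_nonneg _), norm_div, norm_mul, norm_real, norm_real,
      div_pow, mul_pow, Real.norm_eq_abs, Real.norm_eq_abs, sq_abs, sq_abs, Real.sq_sqrt wi.le,
      Real.sq_sqrt wj.le, this, mul_div_cancel_right₀ _ wj.ne', At.d]) (by
    rw [inv_eq_left_inv (G.cc.inv hz), sa, sa, Matrix.mul_smul, Matrix.smul_mul, smul_smul,
      div_mul_cancel₀ _ sj, mul_smul, ← Matrix.smul_mul, ← G.tr i j z hz, Matrix.mul_assoc,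
      G.cc.inv hz, Matrix.mul_one])
  rw [HK, hk, cv_congr e1, e1.self_of_nhds, normSq_eq_norm_sq]
  exact e2

variable (A) in
/-- the error of a metric -/
def EE (w : Fm A ℝ) (a k h : Fm A (Mn n)) (c ε : ℝ) : Fm A (Mn n) := fun i z =>
  er (A.ρ i z) c ε (k i z) (h i z) (HK A w a h i z)

theorem mt_inv {m : WithTop ℕ∞} (H : A.MtM m g h) (hz : z ∈ A.O i j) :
    h i z = (g j i (A.tr i j z))ᴴ * h j (A.tr i j z) * g j i (A.tr i j z) := by
  have := H.tr j i _ (At.tr_mem hz)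
  rwa [At.tr_inv hz] at this

theorem EE_inv (T : Tw A l w) (G : Hig A l g a) (K : A.MtM ∞ g k) (H : A.MtM ∞ g h)
    (hz : z ∈ A.O i j) : EE A w a k h c ε i z =
      (g j i (A.tr i j z))ᴴ * EE A w a k h c ε j (A.tr i j z) * g j i (A.tr i j z) := by
  rw [EE, EE, ← er_tr (normSq_pos.2 (At.d_ne hz)).ne' (G.cc.det_ne (At.tr_mem hz)),
    ← mt_inv K hz, ← mt_inv H hz, ← HK_tr T G H hz, At.dn_ρ i j z hz, smul_eq_mul]

theorem EE_herm (K : A.MtM ∞ g k) (H : A.MtM ∞ g h) (hz : z ∈ ball (0 : ℂ) A.R) :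
    (EE A w a k h c ε i z)ᴴ = EE A w a k h c ε i z :=
  er_herm (K.pos i z hz) (H.pos i z hz) (ad_hk (met_at H hz i) _)

theorem EE_zero (E : Eqn A w a k h c ε) (hz : z ∈ ball (0 : ℂ) A.R) :
    EE A w a k h c ε i z = 0 := by
  rw [EE, er, E i z hz, rh, sub_self, Matrix.mul_zero, smul_zero]

theorem HK_eq (H : A.MtM ∞ g h) (hz : z ∈ ball (0 : ℂ) A.R) :
    HK A w a h i z = rh (A.ρ i z) c ε (k i z) (h i z) -
      (A.ρ i z : ℂ) • ((h i z)⁻¹ * EE A w a k h c ε i z) :=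
  er_solve (At.ρ_pos hz).ne' (pd_det (H.pos i z hz))

theorem eqn_of (T : Tw A l w) (G : Hig A l g a) (K : A.MtM ∞ g k) (H : A.MtM ∞ g h)
    (E : ∀ i z, ‖z‖ < 1 → EE A w a k h c ε i z = 0) : Eqn A w a k h c ε := fun i z hz => by
  obtain ⟨j, h1, h2⟩ := At.ex_unit hz i
  rw [HK_eq (k := k) (c := c) (ε := ε) H hz, EE_inv T G K H h1, E j _ h2, Matrix.mul_zero,
    Matrix.zero_mul, Matrix.mul_zero, smul_zero, sub_zero, rh]

/-- infinitesimal uniqueness -/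
theorem cmp [Nonempty C] (G : A.Cc g) (K : A.MtM ∞ g k) (H : A.MtM ∞ g h) (hε : 0 < ε)
    (E : Eqn A w a k h c ε) {hs B E' : ℕ → Fm A (Mn n)} {B0 : Fm A (Mn n)} {t : ℕ → ℝ}
    (t0 : Tendsto t atTop (𝓝 0)) (t1 : ∀ m, t m ≠ 0) (Hs : ∀ m, A.MtM ∞ g (hs m))
    (e1 : ∀ m i, ∀ z ∈ ball (0 : ℂ) A.R, hs m i z = h i z + (t m : ℂ) • B m i z)
    (e2 : ∀ m i, ∀ z ∈ ball (0 : ℂ) A.R, EE A w a k (hs m) c ε i z = (t m : ℂ) • E' m i z)
    (hB : ∀ i, ∀ z ∈ ball (0 : ℂ) A.R, (B0 i z)ᴴ = B0 i z ∧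
      Tendsto (fun p : ℕ × ℂ => B p.1 i p.2) (atTop ×ˢ 𝓝 z) (𝓝 (B0 i z)) ∧
      Tendsto (fun p : ℕ × ℂ => E' p.1 i p.2) (atTop ×ˢ 𝓝 z) (𝓝 0))
    (i : Fin A.N) {z : ℂ} (hz : z ∈ ball (0 : ℂ) A.R) : B0 i z = 0 := by
  have mx : ∀ m, ∃ q : Fin A.N × ℂ, q ∈ univ ×ˢ closedBall (0 : ℂ) 1 ∧
      (trace (((h q.1 q.2)⁻¹ + (hs m q.1 q.2)⁻¹) * B m q.1 q.2 * ((ε : ℂ) •
        ((k q.1 q.2)⁻¹ * B m q.1 q.2) + (hs m q.1 q.2)⁻¹ * E' m q.1 q.2))).re ≤ 0 ∧
      (trace ((h i z)⁻¹ * B m i z * (hs m i z)⁻¹ * B m i z)).re ≤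
        (trace ((h q.1 q.2)⁻¹ * B m q.1 q.2 * (hs m q.1 q.2)⁻¹ * B m q.1 q.2)).re := fun m => by
    have fn : ∀ {h h' : Fm A (Mn n)}, A.MtM ∞ g h → A.MtM ∞ g h' →
        A.Fn (fun i z => nq (h i z) (h' i z) 1) ∧ A.Ct fun i z => nq (h i z) (h' i z) 1 :=
      fun {h h'} H H' => ⟨fun i j z hz => by
        have := nq_frame (G.det_ne hz) (G.det_ne hz) (h i z) (h' i z) 1
        rw [← H.tr i j z hz, ← H'.tr i j z hz, Matrix.mul_one,
          nonsing_inv_mul _ (isUnit_iff_ne_zero.2 (G.det_ne hz))] at this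
        exact this.symm, fun i z hz => (cd_nq (H.sm.at hz i) (pd_ne (H.pos i z hz))
          (H'.sm.at hz i) contDiffAt_const).continuousAt.continuousWithinAt⟩
    obtain ⟨j, y, y1, y2, y3⟩ := At.Fn.exists_max (A := A)
      (u := fun i z => nq (h i z) (hs m i z) 1 + nq (hs m i z) (h i z) 1)
      ((fn H (Hs m)).1.map₂ (fn (Hs m) H).1 (· + ·))
      fun i => ((fn H (Hs m)).2 i).add ((fn (Hs m) H).2 i)
    have yb : y ∈ ball (0 : ℂ) A.R := At.mem_of_le y1.le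
    have t2 : 0 < t m ^ 2 := sq_pos_of_ne_zero (t1 m)
    refine ⟨(j, y), ⟨trivial, mem_closedBall_zero_iff.2 y1.le⟩, ?_, ?_⟩
    · have := cmp_pt (b := sa A w a j) (met_at H yb j) (met_at (Hs m) yb j) y2
      rw [cmp_alg (k := k j y) (ρ := A.ρ j y) (c := c) (ε := ε) (E := E' m j y)
        (K := hk (h j) (sa A w a j) y) (K' := hk (hs m j) (sa A w a j) y)
        (pd_det (H.pos j y yb)) (pd_det ((Hs m).pos j y yb)) (e1 m j y yb) (E j y yb)
        (by rw [← e2 m j y yb]; exact HK_eq (Hs m) yb)] at this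
      exact nonpos_of_mul_nonpos_right this (mul_pos t2 (At.ρ_pos yb))
    · have := y3 i z hz
      rw [sg_eq (pd_det (H.pos j y yb)) (pd_det ((Hs m).pos j y yb)) (e1 m j y yb),
        sg_eq (pd_det (H.pos i z hz)) (pd_det ((Hs m).pos i z hz)) (e1 m i z hz)] at this
      exact le_of_mul_le_mul_left (by linarith) t2
  choose q q1 q2 q3 using mx
  obtain ⟨⟨j, y⟩, ⟨-, y1⟩, σ, hσ, hq⟩ :=
    (isCompact_univ.prod (isCompact_closedBall (0 : ℂ) 1)).tendsto_subseq q1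
  have yb : y ∈ ball (0 : ℂ) A.R := A.unit_sub y1
  have ej : ∀ᶠ m in atTop, (q (σ m)).1 = j :=
    ((continuous_fst.tendsto _).comp hq).eventually ((isOpen_discrete {j}).mem_nhds rfl)
  have lim : ∀ (j : Fin A.N) (y : ℂ) (s : ℕ → ℂ), y ∈ ball (0 : ℂ) A.R → Tendsto s atTop (𝓝 y) →
      Tendsto (fun m => (trace (((h j (s m))⁻¹ + (hs (σ m) j (s m))⁻¹) * B (σ m) j (s m) *
        ((ε : ℂ) • ((k j (s m))⁻¹ * B (σ m) j (s m)) + (hs (σ m) j (s m))⁻¹ *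
          E' (σ m) j (s m)))).re) atTop (𝓝 (trace (((h j y)⁻¹ + (h j y)⁻¹) * B0 j y *
            ((ε : ℂ) • ((k j y)⁻¹ * B0 j y) + (h j y)⁻¹ * 0))).re) ∧
      Tendsto (fun m => (trace ((h j (s m))⁻¹ * B (σ m) j (s m) * (hs (σ m) j (s m))⁻¹ *
        B (σ m) j (s m))).re) atTop
          (𝓝 (trace ((h j y)⁻¹ * B0 j y * (h j y)⁻¹ * B0 j y)).re) := fun j y s yb hs' => by
    have p := hσ.tendsto_atTop.prodMk hs'
    have b1 := (hB j y yb).2.1.comp p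
    have b2 := (hB j y yb).2.2.comp p
    have iv : ∀ {X : ℕ → Mn n} {X0 : Mn n}, X0.PosDef → Tendsto X atTop (𝓝 X0) →
        Tendsto (fun m => (X m)⁻¹) atTop (𝓝 X0⁻¹) := fun {X X0} p0 hX =>
      (cd_inv (N := 0) (f := fun X : Mn n => X) contDiffAt_id (pd_ne p0)).continuousAt.tendsto.comp hX
    have b3 := (H.sm.at yb j).continuousAt.tendsto.comp hs'
    have b4 := iv (H.pos j y yb) b3
    have b5 := iv (K.pos j y yb) ((K.sm.at yb j).continuousAt.tendsto.comp hs')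
    have b6 : Tendsto (fun m => hs (σ m) j (s m)) atTop (𝓝 (h j y)) := by
      have := b3.add ((((continuous_ofReal.tendsto _).comp t0).comp hσ.tendsto_atTop).smul b1)
      rw [ofReal_zero, zero_smul, add_zero] at this
      exact this.congr' ((hs'.eventually (isOpen_ball.mem_nhds yb)).mono fun m hm =>
        (e1 _ j _ hm).symm)
    have b7 := iv (H.pos j y yb) b6
    have tr : Continuous fun X : Mn n => (trace X).re :=
      continuous_re.comp (continuous_id.matrix_trace)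
    exact ⟨(tr.tendsto _).comp (((b4.add b7).mul b1).mul (((b5.mul b1).const_smul _).add
      (b7.mul b2))), (tr.tendsto _).comp (((b4.mul b1).mul b7).mul b1)⟩
  obtain ⟨l1, l2⟩ := lim j y (fun m => (q (σ m)).2) yb ((continuous_snd.tendsto _).comp hq)
  have z1 : B0 j y = 0 := by
    refine zero_of_tr (H.pos j y yb) (K.pos j y yb) (hB j y yb).1 ?_
    have := le_of_tendsto l1 (ej.mono fun m hm => by have := q2 (σ m); rwa [hm] at this)
    simp only [Matrix.mul_zero, add_zero, Matrix.add_mul, Matrix.mul_smul, trace_add, trace_smul,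
      smul_eq_mul, re_ofReal_mul, add_re, ← Matrix.mul_assoc] at this
    nlinarith
  refine zero_of_tr (H.pos i z hz) (H.pos i z hz) (hB i z hz).1 ?_
  have := le_of_tendsto_of_tendsto (lim i z (fun _ => z) hz tendsto_const_nhds).2 l2
    (ej.mono fun m hm => by have := q3 (σ m); rwa [hm] at this)
  rwa [z1, Matrix.mul_zero, trace_zero, zero_re] at this

end Vale.Agent.P275FR
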