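import Vale.Agent.P275FR.Par2
import Vale.Agent.P275FR.Cmp
import Vale.Agent.P275CT.Weyl

/-! Embedding of a bundle in a trivial bundle; the parametrix on matrix valued functions. -/

set_option linter.unusedSectionVars false

open scoped Matrix.Norms.Operator Topology ComplexOrder ContDiff ComplexConjugate
open Filter Set Matrix Complex Metric MeasureTheory
open Vale.Agent.P281Z.Hm Vale.Agent.P275NA Vale.Agent.P275GC Vale.Agent.P275HK

noncomputable section

namespace Vale.Agent.P275FR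

theorem cd_of {E m n : Type} [NormedAddCommGroup E] [NormedSpace ℝ E] [Fintype m] [Fintype n]
    {z : E} {N : WithTop ℕ∞} {f : E → Matrix m n ℂ}
    (hf : ∀ i j, ContDiffAt ℝ N (fun x => f x i j) z) : ContDiffAt ℝ N f z := by
  classical
  have e : f = fun x => ∑ i, ∑ j, f x i j • Matrix.single i j (1 : ℂ) := by
    funext x
    conv_lhs => rw [matrix_eq_sum_single (f x)]
    simp [smul_single]
  rw [e]
  exact ContDiffAt.sum fun i _ => ContDiffAt.sum fun j _ => (hf i j).smul contDiffAt_const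

variable {ν : Type} [Fintype ν] [DecidableEq ν]

/-- the Hermitian part -/
def hp (X : Mx ν) : Mx ν := (2⁻¹ : ℂ) • (X + Xᴴ)

theorem hp_ct (X : Mx ν) : (hp X)ᴴ = hp X := by
  simp [hp, add_comm]

theorem hp_of {X : Mx ν} (h : Xᴴ = X) : hp X = X := by
  rw [hp, h, ← two_smul ℂ X, smul_smul]; simp

theorem hp_add (X Y : Mx ν) : hp (X + Y) = hp X + hp Y := by
  simp only [hp, conjTranspose_add]; module

theorem hp_smul (t : ℝ) (X : Mx ν) : hp ((t : ℂ) • X) = (t : ℂ) • hp X := by
  simp only [hp, conjTranspose_smul, RCLike.star_def, conj_ofReal]; module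

def hpL : Mx ν →L[ℝ] Mx ν := LinearMap.toContinuousLinearMap
  { toFun := hp, map_add' := hp_add, map_smul' := hp_smul }

theorem hp_gram {m : Type} [Fintype m] [DecidableEq m] (X : Mx ν) (T : Matrix ν m ℂ) :
    hp (Tᴴ * X * T) = Tᴴ * hp X * T := by
  simp only [hp, conjTranspose_mul, conjTranspose_conjTranspose, Matrix.mul_smul, Matrix.smul_mul,
    Matrix.mul_add, Matrix.add_mul, Matrix.mul_assoc]

theorem tr_hp {V : Mx ν} (h : Vᴴ = V) (X : Mx ν) :
    (trace (V * hp X)).re = (trace (V * X)).re := by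
  have : trace (V * Xᴴ) = conj (trace (V * X)) := by
    rw [← RCLike.star_def, ← trace_conjTranspose, conjTranspose_mul, h, trace_mul_comm]
  rw [hp, Matrix.mul_smul, Matrix.mul_add, trace_smul, trace_add, this, add_conj]
  simp

/-- continuous maps to a normed space -/
abbrev CM (X F : Type) [TopologicalSpace X] [NormedAddCommGroup F] : Type := C(X, F)

section mx

variable {X Y : Type} [TopologicalSpace X] [CompactSpace X] [TopologicalSpace Y] [CompactSpace Y]

/-- composition with a linear map -/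
def cl (𝕜 X : Type) [TopologicalSpace X] [NontriviallyNormedField 𝕜] {F G : Type}
    [NormedAddCommGroup F] [NormedSpace 𝕜 F] [NormedAddCommGroup G] [NormedSpace 𝕜 G]
    (g : F →L[𝕜] G) : CM X F →L[𝕜] CM X G := g.compLeftContinuous 𝕜 X

section
variable {ι F : Type} [Fintype ι] [NormedAddCommGroup F] [NormedSpace ℝ F] [NormedSpace ℂ F]
  [IsScalarTower ℝ ℂ F] (e : ι → F →L[ℂ] ℂ) (b : ι → F) (L : C(X, ℂ) →L[ℂ] C(Y, ℂ))

/-- an operator acting on the coordinates -/
def vx : CM X F →L[ℝ] CM Y F := (∑ p, (cl ℂ Y (ContinuousLinearMap.toSpanSingleton ℂ (b p))).comp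
  (L.comp (cl ℂ X (e p)))).restrictScalars ℝ

theorem vx_apply (W : CM X F) (y : Y) : vx e b L W y = ∑ p, L (cl ℂ X (e p) W) y • b p := by
  simp only [vx, ContinuousLinearMap.coe_restrictScalars', _root_.sum_apply,
    ContinuousMap.sum_apply]
  rfl

theorem vx_compact (h : IsCompactOperator L) : IsCompactOperator (vx e b L) := by
  rw [vx, ContinuousLinearMap.coe_restrictScalars']
  exact compact_sum _ _ fun p _ => compact_comp _ (compact_comp' _ h)

end

/-- an entry -/
def en (a b : ν) : CM X (Mx ν) →L[ℂ] C(X, ℂ) := cl ℂ X (entL a b)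

theorem en_apply (a b : ν) (W : CM X (Mx ν)) (x : X) : en a b W x = W x a b := rfl

/-- an operator acting on the entries -/
def mx (L : C(X, ℂ) →L[ℂ] C(Y, ℂ)) : CM X (Mx ν) →L[ℝ] CM Y (Mx ν) :=
  vx (fun p : ν × ν => entL p.1 p.2) (fun p => Matrix.single p.1 p.2 1) L

theorem mx_apply (L : C(X, ℂ) →L[ℂ] C(Y, ℂ)) (W : CM X (Mx ν)) (y : Y) (a b : ν) :
    mx L W y a b = L (en a b W) y := by
  have : mx L W y = ∑ p : ν × ν, L (en p.1 p.2 W) y • Matrix.single p.1 p.2 (1 : ℂ) :=
    vx_apply _ _ _ _ _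
  rw [this, Matrix.sum_apply, Finset.sum_eq_single (a, b)]
  · simp
  · intro p _ hp
    rw [Matrix.smul_apply, single_apply_of_ne _ _ _ _ _ fun h => hp (Prod.ext h.1 h.2), smul_zero]
  · simp

theorem mx_compact {L : C(X, ℂ) →L[ℂ] C(Y, ℂ)} (h : IsCompactOperator L) :
    IsCompactOperator (mx (ν := ν) L) := vx_compact _ _ _ h

end mx

variable {C : Type} [TopologicalSpace C] [T2Space C] [CompactSpace C] (A : At C)

theorem loci : LOCI A := by
  refine ⟨AddMonoidHom.mk' (fun G => A.Ic G) fun F G => ?_, fun j f G hf hG => ?_⟩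
  · rw [At.Ic, At.Ic, At.Ic, ← At.int_add (At.in_Ic F.continuous) (At.in_Ic G.continuous)]
    exact At.int_congr fun i z _ => smul_add _ _ _
  · have h0 : ∀ z ∈ ball (0 : ℂ) A.R, z ∉ closedBall (0 : ℂ) 1 → f z = 0 := fun z _ hz =>
      hf z (not_le.1 fun h => hz (mem_closedBall_zero_iff.2 h))
    show A.Ic G = _
    rw [At.Ic_loc (j := j) G.continuous (isCompact_closedBall 0 1) A.unit_sub fun x hx => by
      rw [hG, At.ext_off h0 hx], ← setIntegral_eq_integral_of_forall_compl_eq_zero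
        (f := fun z => A.ρ j z * f z) (s := closedBall 0 1) fun z hz => by
          rw [hf z (not_le.1 fun h => hz (mem_closedBall_zero_iff.2 h)), mul_zero]]
    exact setIntegral_congr_fun measurableSet_closedBall fun z hz => by
      simp only [hG, At.ext_symm (A.unit_sub hz), smul_eq_mul]

/-- the parametrix on matrices -/
structure MPar (P R : CM C (Mx ν) →L[ℝ] CM C (Mx ν)) (D Db : Fin A.N → CM C (Mx ν) →L[ℝ] CM K3 (Mx ν))
    (G : Fin A.N → CM K3 (Mx ν) →L[ℝ] CM C (Mx ν)) : Prop where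
  cP : IsCompactOperator P
  cR : IsCompactOperator R
  cD : ∀ i, IsCompactOperator (D i)
  cDb : ∀ i, IsCompactOperator (Db i)
  sm : ∀ w : CM C (Mx ν), Smo A w → Smo A (P w)
  dz : ∀ w : CM C (Mx ν), Smo A w → ∀ i z, ‖z‖ ≤ 1 → dz (loc A (P w) i) z = D i w (rt z)
  db : ∀ w : CM C (Mx ν), Smo A w → ∀ i z, ‖z‖ ≤ 1 → db (loc A (P w) i) z = Db i w (rt z)
  dd : ∀ w : CM C (Mx ν), Smo A w → ∀ i, ∀ z ∈ ball (0 : ℂ) A.R,
    P275NA.db (P275NA.dz (loc A (P w) i)) z = ro A i z • loc A (w + R w) i z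
  neg : ∀ w : CM C (Mx ν), (∀ x, (trace ((w x)ᴴ * P w x)).re = 0) → w = 0
  gl : ∀ j φ x, G j φ x = A.ext j (fun z => (et A j z * et A j z) • φ (rt z)) x

theorem exists_mpar : ∃ P R D Db G, MPar (ν := ν) A P R D Db G := by
  obtain ⟨P, R, D, Db, H⟩ := exists_par (A := A) P275CT.ct (loci A)
  choose G hG using fun j => exists_gl (A := A) j (c := fun z => et A j z * et A j z)
    ((et_sm A j).mul (et_sm A j)).continuous.continuousOn ((et_sup A j).mul _)
  have se : ∀ {w : CM C (Mx ν)}, Smo A w → ∀ a b, Smo A (en a b w) := fun hw a b i z hz =>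
    cd_ent (hw i z hz) a b
  have le : ∀ (w : CM C (Mx ν)) i a b, (fun x => loc A (mx P w) i x a b) = loc A (P (en a b w)) i :=
    fun w i a b => funext fun x => mx_apply _ _ _ _ _
  have sm : ∀ w : CM C (Mx ν), Smo A w → Smo A (mx P w) := fun w hw i z hz =>
    cd_of fun a b => by rw [le]; exact H.sm _ (se hw a b) i z hz
  refine ⟨mx P, mx R, fun i => mx (D i), fun i => mx (Db i), fun j => mx (G j), mx_compact H.cP,
    mx_compact H.cR, fun i => mx_compact (H.cD i), fun i => mx_compact (H.cDb i), sm,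
    fun w hw i z hz => ?_, fun w hw i z hz => ?_, fun w hw i z hz => ?_, fun w hw => ?_,
    fun j φ x => ?_⟩
  · ext a b
    refine (wd_ent (df_of (sm w hw i z (unit_ball hz))) 1 a b).trans ?_
    rw [le, mx_apply]
    exact H.dz _ (se hw a b) i z hz
  · ext a b
    refine (wb_ent (df_of (sm w hw i z (unit_ball hz))) 1 a b).trans ?_
    rw [le, mx_apply]
    exact H.db _ (se hw a b) i z hz
  · ext a b
    have e : (fun x => dz (loc A (mx P w) i) x a b) =ᶠ[𝓝 z] dz (loc A (P (en a b w)) i) :=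
      eventually_of_mem (isOpen_ball.mem_nhds hz) fun x hx =>
        (wd_ent (df_of (sm w hw i x hx)) 1 a b).trans (by rw [le])
    refine (wb_ent (df_of (sm_dz (sm w hw i z hz))) 1 a b).trans ((wb_congr e 1).trans
      ((H.dd _ (se hw a b) i z hz).trans ?_))
    simp only [loc, Matrix.smul_apply, ContinuousMap.add_apply, Matrix.add_apply, mx_apply,
      en_apply, smul_eq_mul]
  · have := H.neg (ν × ν) (fun p => en p.1 p.2 w) fun x => by
      have := hw x
      rw [tr_ct_mul, re_sum] at this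
      rw [Fintype.sum_prod_type, ← this]
      refine Finset.sum_congr rfl fun a _ => ?_
      rw [re_sum]
      exact Finset.sum_congr rfl fun b _ => by rw [mx_apply, en_apply, mul_comm]
    ext x a b
    exact congrArg (fun f : C(C, ℂ) => f x) (congrFun this (a, b))
  · ext a b
    rw [mx_apply, hG]
    by_cases h : x ∈ (A.e j).source
    · rw [ext_of _ h, ext_of _ h]; rfl
    · rw [ext_not _ h, ext_not _ h]; rfl

variable {n : ℕ}

/-- an embedding in a trivial bundle -/
structure Emb (g : Cy A (Mn n)) (ι : Fm A (Matrix ν (Fin n) ℂ)) (r : Fm A (Matrix (Fin n) ν ℂ))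
    (π : CM C (Mx ν)) : Prop where
  si : A.Sm ∞ ι
  sr : A.Sm ∞ r
  ti : ∀ i j, ∀ z ∈ A.O i j, ι j (A.tr i j z) = ι i z * g i j z
  tr : ∀ i j, ∀ z ∈ A.O i j, r i z = g i j z * r j (A.tr i j z)
  ri : ∀ i, ∀ z ∈ ball (0 : ℂ) A.R, r i z * ι i z = 1
  ir : ∀ i, ∀ z ∈ ball (0 : ℂ) A.R, ι i z * r i z = loc A π i z
  herm : ∀ x, (π x)ᴴ = π x

variable {A}

theorem exists_emb {g : Cy A (Mn n)} (G : A.Cc g) :
    ∃ ι r π, Emb (ν := Fin A.N × Fin n) A g ι r π := by
  let bl : Fin A.N → Fin A.N → ℂ → Mn n := fun i p =>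
    (A.O i p).indicator fun z => et A p (A.tr i p z) • g p i (A.tr i p z)
  let ι : Fm A (Matrix (Fin A.N × Fin n) (Fin n) ℂ) := fun i z =>
    Matrix.of fun p q => bl i p.1 z p.2 q
  have sb : ∀ i p, ∀ z ∈ ball (0 : ℂ) A.R, ContDiffAt ℝ ∞ (bl i p) z := fun i p z hz =>
    sm_ind (fun w hw => P275CT.cda_smul ((et_sm A p).contDiffAt.comp w (sm_hol (At.an_tr hw)))
      (sm_hol ((G.an (At.tr_mem hw)).comp (At.an_tr hw)))) (fun w _ h => by
        rw [et_sup A _ _ h, zero_smul]) hz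
  have si : A.Sm ∞ ι := fun i z hz =>
    (cd_of (f := ι i) fun p q => cd_ent (sb i p.1 z hz) p.2 q).contDiffWithinAt
  have ti : ∀ i j, ∀ z ∈ A.O i j, ι j (A.tr i j z) = ι i z * g i j z := fun i j z hz => by
    ext p q
    suffices h : bl j p.1 (A.tr i j z) = bl i p.1 z * g i j z from congrFun (congrFun h p.2) q
    by_cases h : z ∈ A.O i p.1
    · simp only [bl, indicator_of_mem h, indicator_of_mem (At.tr_O hz h), At.tr_tr hz]
      rw [Matrix.smul_mul, G.mul p.1 i j _ (At.tr_mem h) (At.tr_O h hz), At.tr_inv h]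
    · simp only [bl, indicator_of_notMem h, indicator_of_notMem fun h' => h (At.O_of_tr hz h'),
        Matrix.zero_mul]
  have pd : ∀ i, ∀ z ∈ ball (0 : ℂ) A.R, ((ι i z)ᴴ * ι i z).PosDef := fun i z hz => by
    obtain ⟨p, h1, h2⟩ := At.ex_unit hz i
    refine PosDef.conjTranspose_mul_self _ fun u v e => ?_
    have : bl i p z *ᵥ u = bl i p z *ᵥ v := funext fun a => congrFun e (p, a)
    refine inj_of_det (P := bl i p z) ?_ this
    simp only [bl, indicator_of_mem h1, det_smul]
    exact mul_ne_zero (pow_ne_zero _ (ofReal_ne_zero.2 (At.η_pos h2).ne'))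
      (G.det_ne (At.tr_mem h1))
  let r : Fm A (Matrix (Fin n) (Fin A.N × Fin n) ℂ) := fun i z => ((ι i z)ᴴ * ι i z)⁻¹ * (ι i z)ᴴ
  have sr : A.Sm ∞ r := fun i z hz => (cd_mul (cd_inv (cd_mul (cd_ct (si.at hz i)) (si.at hz i))
    (pd_ne (pd i z hz))) (cd_ct (si.at hz i))).contDiffWithinAt
  have tr : ∀ i j, ∀ z ∈ A.O i j, r i z = g i j z * r j (A.tr i j z) := fun i j z hz => by
    simp only [r, ti i j z hz, conjTranspose_mul, Matrix.mul_assoc]
    rw [← Matrix.mul_assoc (ι i z)ᴴ, Matrix.mul_inv_rev, Matrix.mul_inv_rev]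
    simp only [Matrix.mul_assoc, nonsing_inv_mul_cancel_left _ _ (ct_det (G.det_ne hz)),
      mul_nonsing_inv_cancel_left _ _ (isUnit_iff_ne_zero.2 (G.det_ne hz))]
  have fn : A.Fn fun i z => ι i z * r i z := fun i j z hz => by
    simp only [ti i j z hz, tr i j z hz, Matrix.mul_assoc]
  refine ⟨ι, r, ⟨_, fn.cont_gl fun i z hz =>
    (cd_mul (si.at hz i) (sr.at hz i)).continuousAt.continuousWithinAt⟩, si, sr, ti, tr,
    fun i z hz => ?_, fun i z hz => (fn.pl_gl hz).symm, fun x => ?_⟩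
  · simp only [r, Matrix.mul_assoc, nonsing_inv_mul _ (pd_det (pd i z hz))]
  · show (ι _ _ * r _ _)ᴴ = ι _ _ * r _ _
    simp only [r, conjTranspose_mul, conjTranspose_conjTranspose, conjTranspose_nonsing_inv,
      Matrix.mul_assoc]

end Vale.Agent.P275FR
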