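import Vale.Agent.P275FR.Loc
import Vale.Agent.P275GC.Defs

/-! Extension by zero from a chart, restriction to a chart, as operators. -/

set_option linter.unusedSectionVars false

open scoped Topology ComplexConjugate ContDiff
open Filter Set Metric MeasureTheory Complex
open Vale.Agent.P275NA Vale.Agent.P275GC Vale.Agent.P281Z.Hm

noncomputable section

namespace Vale.Agent.P275FR

/-- the retraction onto the unit disc -/
def p1 (z : K3) : ℂ := rt (3 * z) / 3

theorem p1_le (z : K3) : ‖p1 z‖ ≤ 1 := by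
  have := mem_closedBall_zero_iff.1 (rt (3 * z)).2
  rw [p1, norm_div, div_le_one (by simp)]
  simpa using this

theorem cont_p1 : Continuous p1 :=
  (continuous_subtype_val.comp (cont_rt.comp (by fun_prop))).div_const _

theorem p1_rt {z : ℂ} (h : ‖z‖ ≤ 1) : p1 (rt z) = z := by
  rw [p1, rt_of (h.trans (by norm_num)), rt_of (by rw [norm_mul]; simp; linarith)]
  ring

/-- supported in the closed unit disc -/
def Sup {F : Type} [Zero F] (u : ℂ → F) : Prop := ∀ z, 1 < ‖z‖ → u z = 0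

theorem Sup.ev {F : Type} [Zero F] {u : ℂ → F} (h : Sup u) {z : ℂ} (hz : 1 < ‖z‖) :
    u =ᶠ[𝓝 z] fun _ => 0 :=
  ((isOpen_lt continuous_const continuous_norm).eventually_mem hz).mono fun w hw => h w hw

section
variable {F : Type} [NormedAddCommGroup F] [NormedSpace ℝ F] [NormedSpace ℂ F]

theorem dz_const (c : F) (z : ℂ) : dz (fun _ => c) z = 0 := by simp [dz, wd]

theorem db_const (c : F) (z : ℂ) : db (fun _ => c) z = 0 := by simp [db, wb]

theorem Sup.dz {u : ℂ → F} (h : Sup u) : Sup (dz u) := fun _ hz => by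
  rw [P275NA.dz, wd_congr (h.ev hz)]; exact dz_const _ _

theorem Sup.db {u : ℂ → F} (h : Sup u) : Sup (db u) := fun _ hz => by
  rw [P275NA.db, wb_congr (h.ev hz)]; exact db_const _ _

variable [IsScalarTower ℝ ℂ F]

theorem sm_dz {u : ℂ → F} {z : ℂ} (h : ContDiffAt ℝ ∞ u z) : ContDiffAt ℝ ∞ (dz u) z := by
  have h1 : ContDiffAt ℝ ∞ (fderiv ℝ u) z := h.fderiv_right (by simp)
  exact ((h1.clm_apply contDiffAt_const).sub
    ((h1.clm_apply contDiffAt_const).const_smul I)).const_smul (2⁻¹ : ℂ)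

theorem sm_db {u : ℂ → F} {z : ℂ} (h : ContDiffAt ℝ ∞ u z) : ContDiffAt ℝ ∞ (db u) z := by
  have h1 : ContDiffAt ℝ ∞ (fderiv ℝ u) z := h.fderiv_right (by simp)
  exact ((h1.clm_apply contDiffAt_const).add
    ((h1.clm_apply contDiffAt_const).const_smul I)).const_smul (2⁻¹ : ℂ)

theorem df_of {u : ℂ → F} {z : ℂ} (h : ContDiffAt ℝ ∞ u z) : DifferentiableAt ℝ u z :=
  h.differentiableAt (by simp)

theorem dz_comp {u : ℂ → F} {g : ℂ → ℂ} {z : ℂ} (hu : DifferentiableAt ℝ u (g z))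
    (hg : DifferentiableAt ℂ g z) : dz (fun x => u (g x)) z = deriv g z • dz u (g z) := by
  rw [dz, wd_comp hu hg, ← wd_smulv, smul_eq_mul, mul_one]; rfl

theorem db_comp {u : ℂ → F} {g : ℂ → ℂ} {z : ℂ} (hu : DifferentiableAt ℝ u (g z))
    (hg : DifferentiableAt ℂ g z) : db (fun x => u (g x)) z = conj (deriv g z) • db u (g z) := by
  rw [db, wb_comp hu hg, ← wb_smulv, smul_eq_mul, mul_one]; rfl

theorem sm_hol {u : ℂ → F} [CompleteSpace F] {z : ℂ} (h : AnalyticAt ℂ u z) :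
    ContDiffAt ℝ ∞ u z := (h.contDiffAt (n := ∞)).restrict_scalars ℝ
end

theorem Sup.mul {u : ℂ → ℂ} (h : Sup u) (v : ℂ → ℂ) : Sup fun z => u z * v z :=
  fun z hz => by simp only [h z hz, zero_mul]

/-- the multiplication-composition operators -/
theorem exists_ev {X : Type} [TopologicalSpace X] [CompactSpace X] (c τ : X → ℂ)
    (h : ∀ φ : ℂ → ℂ, Continuous φ → Continuous fun x => c x * φ (τ x)) :
    ∃ L : B3 →L[ℂ] C(X, ℂ), ∀ φ x, L φ x = c x * lf φ (τ x) := by
  have hc : Continuous c := by simpa using h (fun _ => 1) continuous_const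
  let c' : C(X, ℂ) := ⟨c, hc⟩
  let L0 : B3 →ₗ[ℂ] C(X, ℂ) :=
    { toFun := fun φ => ⟨_, h _ (cont_lf φ)⟩
      map_add' := fun φ φ' => by ext x; simp [lf, mul_add]
      map_smul' := fun a φ => by ext x; simp [lf, mul_left_comm] }
  have hL : ∀ φ, ‖L0 φ‖ ≤ ‖c'‖ * ‖φ‖ := fun φ =>
    (ContinuousMap.norm_le _ (by positivity)).2 fun x =>
      (norm_mul_le _ _).trans (mul_le_mul (c'.norm_coe_le_norm x) (norm_lf φ _) (norm_nonneg _)
        (norm_nonneg _))
  exact ⟨L0.mkContinuous _ hL, fun _ _ => rfl⟩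

variable {C : Type} [TopologicalSpace C] [T2Space C] [CompactSpace C] (A : At C)

/-- a function on the curve in a chart -/
def loc {F : Type} (w : C → F) (i : Fin A.N) (z : ℂ) : F := w ((A.e i).symm z)

variable {A}

theorem unit_ball {z : ℂ} (h : ‖z‖ ≤ 1) : z ∈ ball (0 : ℂ) A.R :=
  mem_ball_zero_iff.2 (h.trans_lt A.hR)

theorem loc_e {F : Type} (w : C → F) {i : Fin A.N} {x : C} (h : x ∈ (A.e i).source) :
    loc A w i (A.e i x) = w x := by rw [loc, (A.e i).left_inv h]

theorem loc_tr {F : Type} (w : C → F) {i j : Fin A.N} {z : ℂ} (h : z ∈ A.O i j) :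
    loc A w j (A.tr i j z) = loc A w i z := by rw [loc, At.symm_tr h, loc]

theorem ev_out' {j : Fin A.N} {x : C} (h : x ∉ (A.e j).source) :
    ∀ᶠ y in 𝓝 x, y ∈ (A.e j).source → 1 < ‖A.e j y‖ := by
  have hK : IsCompact ((A.e j).symm '' closedBall 0 1) :=
    (isCompact_closedBall _ _).image_of_continuousOn ((At.cont_symm j).mono fun z hz =>
      unit_ball (mem_closedBall_zero_iff.1 hz))
  have hx : x ∈ ((A.e j).symm '' closedBall 0 1)ᶜ := by
    rintro ⟨z, hz, rfl⟩
    exact h (At.map_tgt (unit_ball (mem_closedBall_zero_iff.1 hz)))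
  filter_upwards [hK.isClosed.isOpen_compl.mem_nhds hx] with y hy hs
  by_contra hn
  exact hy ⟨_, mem_closedBall_zero_iff.2 (not_lt.1 hn), (A.e j).left_inv hs⟩

theorem ind_ev {F : Type} [Zero F] {i j : Fin A.N} {u : ℂ → F}
    (h0 : ∀ z ∈ A.O i j, 1 < ‖A.tr i j z‖ → u z = 0) {z : ℂ} (hz : z ∈ ball (0 : ℂ) A.R) :
    (z ∈ A.O i j ∧ (A.O i j).indicator u =ᶠ[𝓝 z] u) ∨
      (z ∉ A.O i j ∧ (A.O i j).indicator u =ᶠ[𝓝 z] fun _ => 0) := by
  by_cases h : z ∈ A.O i j
  · exact Or.inl ⟨h, eventually_of_mem (At.O_nhds h) fun w hw => indicator_of_mem hw _⟩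
  · refine Or.inr ⟨h, ?_⟩
    filter_upwards [(At.contAt_symm (i := i) hz).eventually (ev_out' (j := j) fun h' => h ⟨hz, h'⟩)]
      with w hw
    by_cases h' : w ∈ A.O i j
    · rw [indicator_of_mem h', h0 w h' (hw h'.2)]
    · exact indicator_of_notMem h' _

theorem ext_of {F : Type} [Zero F] {j : Fin A.N} (u : ℂ → F) {x : C} (h : x ∈ (A.e j).source) :
    A.ext j u x = u (A.e j x) := indicator_of_mem h _

theorem ext_not {F : Type} [Zero F] {j : Fin A.N} (u : ℂ → F) {x : C} (h : x ∉ (A.e j).source) :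
    A.ext j u x = 0 := indicator_of_notMem h _

theorem loc_ext {F : Type} [Zero F] (i j : Fin A.N) (u : ℂ → F) {z : ℂ}
    (hz : z ∈ ball (0 : ℂ) A.R) :
    loc A (A.ext j u) i z = (A.O i j).indicator (fun w => u (A.tr i j w)) z := by
  by_cases h : z ∈ A.O i j
  · rw [indicator_of_mem h, loc, ext_of u h.2]; rfl
  · rw [indicator_of_notMem h, loc, ext_not u fun h' => h ⟨hz, h'⟩]

theorem loc_ext_ev {F : Type} [Zero F] (i j : Fin A.N) (u : ℂ → F) {z : ℂ}
    (hz : z ∈ ball (0 : ℂ) A.R) :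
    loc A (A.ext j u) i =ᶠ[𝓝 z] (A.O i j).indicator fun w => u (A.tr i j w) :=
  eventually_of_mem (isOpen_ball.mem_nhds hz) fun _ hw => loc_ext i j u hw

theorem cont_ext {F : Type} [Zero F] [TopologicalSpace F] (j : Fin A.N) {u : ℂ → F}
    (hu : ContinuousOn u (ball 0 A.R)) (h0 : Sup u) : Continuous (A.ext j u) := by
  refine continuous_iff_continuousAt.2 fun x => ?_
  by_cases h : x ∈ (A.e j).source
  · have e : A.ext j u =ᶠ[𝓝 x] fun y => u (A.e j y) :=
      eventually_of_mem ((A.e j).open_source.mem_nhds h) fun y hy => ext_of u hy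
    refine ContinuousAt.congr ?_ e.symm
    exact (hu.continuousAt (isOpen_ball.mem_nhds (At.map_src h))).comp ((A.e j).continuousAt h)
  · have e : A.ext j u =ᶠ[𝓝 x] fun _ => 0 := by
      filter_upwards [ev_out' h] with y hy
      by_cases h' : y ∈ (A.e j).source
      · rw [ext_of u h', h0 _ (hy h')]
      · exact ext_not u h'
    exact continuousAt_const.congr e.symm

/-- global operators -/
theorem exists_gl (j : Fin A.N) {c : ℂ → ℂ} (hc : ContinuousOn c (ball 0 A.R)) (h0 : Sup c) :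
    ∃ L : B3 →L[ℂ] C(C, ℂ), ∀ φ x, L φ x = A.ext j (fun z => c z * lf φ z) x := by
  have e : ∀ (φ : ℂ → ℂ) x, A.ext j c x * φ (A.e j x) = A.ext j (fun z => c z * φ z) x := by
    intro φ x
    by_cases h : x ∈ (A.e j).source
    · rw [ext_of _ h, ext_of _ h]
    · rw [ext_not _ h, ext_not _ h, zero_mul]
  obtain ⟨L, hL⟩ := exists_ev (A.ext j c) (A.e j) fun φ hφ => by
    simp only [e]; exact cont_ext j (hc.mul hφ.continuousOn) (h0.mul φ)
  exact ⟨L, fun φ x => by rw [hL, e]⟩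

/-- operators from the chart `j` to the chart `i` -/
theorem exists_ch (i j : Fin A.N) {δ c : ℂ → ℂ} (hδ : ∀ z ∈ A.O i j, ContinuousAt δ z)
    (hc : Continuous c) (h0 : Sup c) : ∃ L : B3 →L[ℂ] B3, ∀ φ z, ‖z‖ ≤ 1 → lf (L φ) z =
      (A.O i j).indicator (fun w => δ w * (c (A.tr i j w) * lf φ (A.tr i j w))) z := by
  have e : ∀ (φ : ℂ → ℂ) z, (A.O i j).indicator (fun w => δ w * c (A.tr i j w)) z *
      φ (A.tr i j z) = (A.O i j).indicator (fun w => δ w * (c (A.tr i j w) * φ (A.tr i j w))) z := by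
    intro φ z
    by_cases h : z ∈ A.O i j
    · rw [indicator_of_mem h, indicator_of_mem h, mul_assoc]
    · rw [indicator_of_notMem h, indicator_of_notMem h, zero_mul]
  obtain ⟨L, hL⟩ := exists_ev (X := K3)
    (fun z => (A.O i j).indicator (fun w => δ w * c (A.tr i j w)) (p1 z)) (fun z => A.tr i j (p1 z))
    fun φ hφ => by
      simp only [e]
      refine continuous_iff_continuousAt.2 fun z => ContinuousAt.comp (f := p1)
        (g := (A.O i j).indicator fun w => δ w * (c (A.tr i j w) * φ (A.tr i j w))) ?_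
        cont_p1.continuousAt
      rcases ind_ev (u := fun w => δ w * (c (A.tr i j w) * φ (A.tr i j w)))
        (fun w _ hw => by rw [h0 _ hw, zero_mul, mul_zero]) (unit_ball (p1_le z)) with h | h
      · exact ((hδ _ h.1).mul ((hc.mul hφ).continuousAt.comp
          (At.an_tr h.1).continuousAt)).congr h.2.symm
      · exact continuousAt_const.congr h.2.symm
  exact ⟨L, fun φ z hz => by rw [lf, hL, p1_rt hz, e]⟩

variable (A)

/-- the inverse chart on the unit disc -/
def sy (j : Fin A.N) : C(K3, C) :=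
  ⟨fun z => (A.e j).symm (p1 z), (At.cont_symm j).comp_continuous cont_p1
    fun z => unit_ball (p1_le z)⟩

/-- restriction to a chart -/
def rs (j : Fin A.N) : C(C, ℂ) →L[ℂ] B3 := ContinuousMap.compCLM ℂ ℂ (sy A j)

theorem lf_rs (j : Fin A.N) (w : C(C, ℂ)) {z : ℂ} (h : ‖z‖ ≤ 1) :
    lf (rs A j w) z = loc A w j z := by
  show w ((A.e j).symm (p1 (rt z))) = _
  rw [p1_rt h, loc]

variable {A}

section deriv
variable {F : Type} [NormedAddCommGroup F] [NormedSpace ℝ F] [NormedSpace ℂ F]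
  [IsScalarTower ℝ ℂ F] {i j : Fin A.N} {u : ℂ → F} {z : ℂ}

theorem sm_ind {u : ℂ → F} (hu : ∀ z ∈ A.O i j, ContDiffAt ℝ ∞ u z)
    (h0 : ∀ z ∈ A.O i j, 1 < ‖A.tr i j z‖ → u z = 0) (hz : z ∈ ball (0 : ℂ) A.R) :
    ContDiffAt ℝ ∞ ((A.O i j).indicator u) z := by
  rcases ind_ev h0 hz with h | h
  · exact (hu z h.1).congr_of_eventuallyEq h.2
  · exact contDiffAt_const.congr_of_eventuallyEq h.2

theorem sm_ext (hu : ContDiff ℝ ∞ u) (h0 : Sup u) (hz : z ∈ ball (0 : ℂ) A.R) :
    ContDiffAt ℝ ∞ (loc A (A.ext j u) i) z :=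
  (sm_ind (fun _ hw => hu.contDiffAt.comp _ (sm_hol (At.an_tr hw))) (fun _ _ hw => h0 _ hw)
    hz).congr_of_eventuallyEq (loc_ext_ev i j u hz)

theorem dz_ext (hu : ContDiff ℝ ∞ u) (h0 : Sup u) (hz : z ∈ ball (0 : ℂ) A.R) :
    dz (loc A (A.ext j u) i) z =
      (A.O i j).indicator (fun w => A.d i j w • dz u (A.tr i j w)) z := by
  rw [dz, wd_congr (loc_ext_ev i j u hz)]
  rcases ind_ev (u := fun w => u (A.tr i j w)) (fun _ _ hw => h0 _ hw) hz with h | h
  · rw [wd_congr h.2, indicator_of_mem h.1]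
    exact dz_comp (df_of hu.contDiffAt) (At.df_tr h.1)
  · rw [wd_congr h.2, indicator_of_notMem h.1]; exact dz_const _ _

theorem db_ext (hu : ContDiff ℝ ∞ u) (h0 : Sup u) (hz : z ∈ ball (0 : ℂ) A.R) :
    db (loc A (A.ext j u) i) z =
      (A.O i j).indicator (fun w => conj (A.d i j w) • db u (A.tr i j w)) z := by
  rw [db, wb_congr (loc_ext_ev i j u hz)]
  rcases ind_ev (u := fun w => u (A.tr i j w)) (fun _ _ hw => h0 _ hw) hz with h | h
  · rw [wb_congr h.2, indicator_of_mem h.1]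
    exact db_comp (df_of hu.contDiffAt) (At.df_tr h.1)
  · rw [wb_congr h.2, indicator_of_notMem h.1]; exact db_const _ _

theorem dd_ext (hu : ContDiff ℝ ∞ u) (h0 : Sup u) (hz : z ∈ ball (0 : ℂ) A.R) :
    db (dz (loc A (A.ext j u) i)) z =
      (A.O i j).indicator (fun w => (normSq (A.d i j w) : ℂ) • db (dz u) (A.tr i j w)) z := by
  have e : dz (loc A (A.ext j u) i) =ᶠ[𝓝 z]
      (A.O i j).indicator fun w => A.d i j w • dz u (A.tr i j w) :=
    eventually_of_mem (isOpen_ball.mem_nhds hz) fun _ hw => dz_ext hu h0 hw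
  rw [db, wb_congr e]
  rcases ind_ev (u := fun w => A.d i j w • dz u (A.tr i j w))
    (fun _ _ hw => by rw [h0.dz _ hw, smul_zero]) hz with h | h
  · have h1 := df_of (sm_dz (hu.contDiffAt (x := A.tr i j z)))
    have h2 : DifferentiableAt ℝ (fun w => dz u (A.tr i j w)) z :=
      h1.comp z (df_of (sm_hol (At.an_tr h.1)))
    rw [wb_congr h.2, indicator_of_mem h.1, wb_smul (df_of (sm_hol (At.an_d h.1))) h2, wb_hol (At.an_d h.1).differentiableAt, zero_smul,
      zero_add, ← mul_conj, mul_smul]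
    exact congrArg _ (db_comp h1 (At.df_tr h.1))
  · rw [wb_congr h.2, indicator_of_notMem h.1]; exact db_const _ _
end deriv

end Vale.Agent.P275FR
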