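import Mathlib.Analysis.Normed.Operator.Compact.FredholmAlternative
import Mathlib.Analysis.Calculus.ImplicitContDiff

/-! Fredholm alternative + implicit function theorem for maps `u + F (p, A u)`, `A` compact. -/

set_option linter.unusedSectionVars false

namespace Vale.Agent.P275FR

open Filter Topology

section
variable {𝕜 : Type*} [NontriviallyNormedField 𝕜] [CompleteSpace 𝕜]
  {E : Type*} [NormedAddCommGroup E] [NormedSpace 𝕜 E] [CompleteSpace E]

/-- `1 + K` with `K` compact is invertible as soon as it is injective. -/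
theorem isUnit_one_add (K : E →L[𝕜] E) (hK : IsCompactOperator K)
    (hi : ∀ x, x + K x = 0 → x = 0) : IsUnit (1 + K) := by
  rcases hK.hasEigenvalue_or_mem_resolventSet (μ := (-1 : 𝕜)) (by simp) with h | h
  · obtain ⟨x, hx⟩ := h.exists_hasEigenvector
    have h1 : K x = -x := by simpa using hx.apply_eq_smul
    exact absurd (hi x (by simp [h1])) hx.2
  · rw [spectrum.mem_resolventSet_iff] at h
    have h2 : (1 + K) = -(algebraMap 𝕜 (E →L[𝕜] E) (-1) - K) := by
      simp only [map_neg, map_one]; abel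
    rw [h2]; exact h.neg

theorem isInvertible_of_isUnit {L : E →L[𝕜] E} (h : IsUnit L) : L.IsInvertible := by
  obtain ⟨u, rfl⟩ := h
  exact ⟨ContinuousLinearEquiv.unitsEquiv 𝕜 E u, by ext x; simp⟩

theorem isInvertible_of_compact (L K : E →L[𝕜] E) (hK : IsCompactOperator K)
    (hL : ∀ x, L x = x + K x) (hi : ∀ x, L x = 0 → x = 0) : L.IsInvertible := by
  have h : L = 1 + K := by ext x; simp [hL]
  rw [h]
  exact isInvertible_of_isUnit (isUnit_one_add K hK fun x hx => hi x (by rw [hL, hx]))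

/-- surjectivity form -/
theorem surj_of_compact (K : E →L[𝕜] E) (hK : IsCompactOperator K)
    (hi : ∀ x, x + K x = 0 → x = 0) (y : E) : ∃ x, x + K x = y := by
  obtain ⟨x, hx⟩ := (isInvertible_of_isUnit (isUnit_one_add K hK hi)).surjective y
  exact ⟨x, by simpa using hx⟩
end

section
variable {𝕜 : Type*} [RCLike 𝕜]
  {P : Type*} [NormedAddCommGroup P] [NormedSpace 𝕜 P] [CompleteSpace P]
  {E : Type*} [NormedAddCommGroup E] [NormedSpace 𝕜 E] [CompleteSpace E]
  {Y : Type*} [NormedAddCommGroup Y] [NormedSpace 𝕜 Y]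

/-- Implicit function theorem for `G (p, u) = u + F (p, A u)` with `A` compact linear. -/
theorem ift {n : WithTop ℕ∞} (hn : n ≠ 0) (A : E →L[𝕜] Y) (hA : IsCompactOperator A)
    (F : P × Y → E) (p0 : P) (u0 : E) (hF : ContDiffAt 𝕜 n F (p0, A u0))
    (hi : ∀ v, v + fderiv 𝕜 F (p0, A u0) (0, A v) = 0 → v = 0) :
    ∃ ψ : P → E, ContDiffAt 𝕜 n ψ p0 ∧ ψ p0 = u0 ∧
      (∀ᶠ p in 𝓝 p0, ψ p + F (p, A (ψ p)) = u0 + F (p0, A u0)) ∧
      ∀ᶠ v in 𝓝 (p0, u0), v.2 + F (v.1, A v.2) = u0 + F (p0, A u0) → ψ v.1 = v.2 := by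
  let B : P × E →L[𝕜] P × Y := (ContinuousLinearMap.id 𝕜 P).prodMap A
  have hB : ∀ v : P × E, B v = (v.1, A v.2) := fun v => rfl
  let G : P × E → E := fun v => v.2 + F (B v)
  have hFB : ContDiffAt 𝕜 n (fun v => F (B v)) (p0, u0) :=
    ContDiffAt.comp (p0, u0) (g := F) (f := B) (by rw [hB]; exact hF) B.contDiff.contDiffAt
  have hG : ContDiffAt 𝕜 n G (p0, u0) := contDiffAt_snd.add hFB
  have hd : HasFDerivAt G (ContinuousLinearMap.snd 𝕜 P E + (fderiv 𝕜 F (p0, A u0)).comp B)
      (p0, u0) := by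
    refine hasFDerivAt_snd.add ?_
    have h1 : HasFDerivAt F (fderiv 𝕜 F (p0, A u0)) (B (p0, u0)) := by
      rw [hB]; exact (hF.differentiableAt hn).hasFDerivAt
    exact h1.comp (p0, u0) B.hasFDerivAt
  let K : E →L[𝕜] E := ((fderiv 𝕜 F (p0, A u0)).comp (ContinuousLinearMap.inr 𝕜 P Y)).comp A
  have hK : IsCompactOperator K :=
    hA.clm_comp ((fderiv 𝕜 F (p0, A u0)).comp (ContinuousLinearMap.inr 𝕜 P Y))
  have hinv : (fderiv 𝕜 G (p0, u0) ∘L ContinuousLinearMap.inr 𝕜 P E).IsInvertible := by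
    refine isInvertible_of_compact _ K hK (fun x => ?_) (fun x hx => hi x ?_)
    · rw [hd.fderiv]; simp [K, hB]
    · rw [hd.fderiv] at hx; simpa [hB] using hx
  refine ⟨hG.implicitFunction hn hinv, hG.contDiffAt_implicitFunction hn hinv,
    hG.implicitFunction_apply_self hn hinv, ?_, ?_⟩
  · exact hG.eventually_apply_implicitFunction hn hinv
  · filter_upwards [hG.eventually_apply_eq_iff_implicitFunction hn hinv] with v hv h
    exact hv.1 h
end

end Vale.Agent.P275FR
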