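import Vale.Agent.P275FR.Emb
import Mathlib.Analysis.Matrix.Hermitian

/-! The lower order part of the equation as a function of the one-jet. -/

set_option linter.unusedSectionVars false

open scoped Matrix.Norms.Operator Topology ComplexOrder ContDiff ComplexConjugate
open Filter Set Matrix Complex Metric
open Vale.Agent.P281Z.Hm Vale.Agent.P275NA Vale.Agent.P275GC Vale.Agent.P275HK

noncomputable section

namespace Vale.Agent.P275FR

variable {ν m : Type} [Fintype ν] [DecidableEq ν] [Fintype m] [DecidableEq m]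

/-- positivity is an open condition on Hermitian matrices -/
theorem pd_ev {X : Type} [TopologicalSpace X] {f : X → Mx m} {x : X} (hf : ContinuousAt f x)
    (hh : ∀ᶠ y in 𝓝 x, (f y)ᴴ = f y) (h : (f x).PosDef) : ∀ᶠ y in 𝓝 x, (f y).PosDef := by
  have := (isCompact_sphere (0 : m → ℂ) 1).eventually_forall_of_forall_eventually (x₀ := x)
    (P := fun y v => 0 < (star v ⬝ᵥ f y *ᵥ v).re) fun v hv => by
      have c : Continuous fun p : Mx m × (m → ℂ) => (star p.2 ⬝ᵥ p.1 *ᵥ p.2).re :=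
        continuous_re.comp (continuous_snd.star.dotProduct
          (continuous_fst.matrix_mulVec continuous_snd))
      exact (c.continuousAt.comp (f := fun p : X × (m → ℂ) => (f p.1, p.2))
        ((hf.comp_of_eq continuousAt_fst rfl).prodMk continuousAt_snd)).eventually
          (lt_mem_nhds (lt_def.1 (h.dotProduct_mulVec_pos (ne_of_mem_sphere hv one_ne_zero))).1)
  filter_upwards [this, hh] with y h1 h2
  refine PosDef.of_dotProduct_mulVec_pos h2 fun v hv => lt_def.2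
    ⟨?_, (IsHermitian.im_star_dotProduct_mulVec_self h2 v).symm⟩
  have h3 : 0 < ‖v‖⁻¹ := inv_pos.2 (norm_pos_iff.2 hv)
  have := h1 (((‖v‖⁻¹ : ℝ) : ℂ) • v) (by
    rw [mem_sphere_zero_iff_norm, norm_smul, norm_real, norm_inv, norm_norm,
      inv_mul_cancel₀ (norm_ne_zero_iff.2 hv)])
  rw [star_smul, mulVec_smul, smul_dotProduct, dotProduct_smul, RCLike.star_def, conj_ofReal,
    smul_eq_mul, smul_eq_mul, re_ofReal_mul, re_ofReal_mul] at this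
  exact (mul_pos_iff_of_pos_left h3).1 ((mul_pos_iff_of_pos_left h3).1 this)

section three

variable {f : ℂ → Matrix m ν ℂ} {u : ℂ → Mx ν} {g : ℂ → Matrix ν m ℂ} {z : ℂ}

theorem sm3 (hf : ContDiffAt ℝ ∞ f z) (hu : ContDiffAt ℝ ∞ u z) (hg : ContDiffAt ℝ ∞ g z) :
    ContDiffAt ℝ ∞ (fun x => f x * u x * g x) z := cd_mul (cd_mul hf hu) hg

theorem dz3 (hf : DifferentiableAt ℝ f z) (hu : DifferentiableAt ℝ u z)
    (hg : DifferentiableAt ℝ g z) : dz (fun x => f x * u x * g x) z =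
      dz f z * u z * g z + f z * dz u z * g z + f z * u z * dz g z := by
  refine (wd_mul (df_mul hf hu) hg 1).trans ?_
  rw [wd_mul hf hu, Matrix.add_mul]

theorem db3 (hf : DifferentiableAt ℝ f z) (hu : DifferentiableAt ℝ u z)
    (hg : DifferentiableAt ℝ g z) : db (fun x => f x * u x * g x) z =
      db f z * u z * g z + f z * db u z * g z + f z * u z * db g z := by
  refine (wb_mul (df_mul hf hu) hg 1).trans ?_
  rw [wb_mul hf hu, Matrix.add_mul]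

end three

/-- one-jets -/
abbrev Jt (ν : Type) : Type := Mx ν × Mx ν × Mx ν

/-- the derivative of the Hermitian part -/
def u1 (j : Jt ν) : Mx ν := (2⁻¹ : ℂ) • (j.2.1 + j.2.2ᴴ)

section jets

variable (h : ℂ → Mx m) (T : ℂ → Matrix ν m ℂ) (z : ℂ)

/-- the new metric -/
def H0 (u : Mx ν) : Mx m := h z + (T z)ᴴ * hp u * T z

/-- its derivative -/
def H1 (j : Jt ν) : Mx m := dz h z + ((db T z)ᴴ * hp j.1 * T z + (T z)ᴴ * u1 j * T z +
  (T z)ᴴ * hp j.1 * dz T z)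

/-- the lower order part of its Laplacian -/
def H3 (j : Jt ν) : Mx m := db (dz h) z +
  ((dz (db T) z)ᴴ * hp j.1 * T z + (db T z)ᴴ * (u1 j)ᴴ * T z + (db T z)ᴴ * hp j.1 * db T z +
    ((dz T z)ᴴ * u1 j * T z + (T z)ᴴ * u1 j * db T z) +
    ((dz T z)ᴴ * hp j.1 * dz T z + (T z)ᴴ * (u1 j)ᴴ * dz T z + (T z)ᴴ * hp j.1 * db (dz T) z))

variable {h T z} {u : ℂ → Mx ν}

theorem sm_hp {E : Type} [NormedAddCommGroup E] [NormedSpace ℝ E] {u : E → Mx ν} {z : E}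
    (hu : ContDiffAt ℝ ∞ u z) : ContDiffAt ℝ ∞ (fun x => hp (u x)) z :=
  (contDiffAt_const (c := (2⁻¹ : ℂ))).smul (hu.add (cd_ct hu))

theorem df_hp (hu : DifferentiableAt ℝ u z) : DifferentiableAt ℝ (fun x => hp (u x)) z :=
  df_msmul _ (hu.add (df_ct hu))

theorem dz_hp (hu : DifferentiableAt ℝ u z) :
    dz (fun x => hp (u x)) z = (2⁻¹ : ℂ) • (dz u z + (db u z)ᴴ) := by
  refine (wd_msmul _ (hu.add (df_ct hu)) 1).trans ?_
  rw [← wd_ct hu]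
  exact congrArg _ (wd_add hu (df_ct hu) 1)

theorem db_hp (hu : DifferentiableAt ℝ u z) :
    db (fun x => hp (u x)) z = (dz (fun x => hp (u x)) z)ᴴ := by
  rw [← wb_ct (f := fun x => hp (u x)) (df_hp hu)]
  simp only [hp_ct]

theorem sm_ev {F : Type} [NormedAddCommGroup F] [NormedSpace ℝ F] {f : ℂ → F}
    (hf : ContDiffAt ℝ ∞ f z) : ∀ᶠ x in 𝓝 z, DifferentiableAt ℝ f x :=
  ((hf.of_le (m := 1) (by norm_cast)).eventually (by simp)).mono fun _ hx =>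
    hx.differentiableAt one_ne_zero

theorem dd_hp (hu : ContDiffAt ℝ ∞ u z) : db (dz fun x => hp (u x)) z = hp (db (dz u) z) := by
  have e : dz (fun x => hp (u x)) =ᶠ[𝓝 z] fun x => (2⁻¹ : ℂ) • (dz u x + (db u x)ᴴ) :=
    (sm_ev hu).mono fun x hx => dz_hp hx
  have a := df_of (sm_dz hu)
  have b := df_of (sm_db hu)
  refine (wb_congr e 1).trans ((wb_msmul _ (a.add (df_ct b)) 1).trans (congrArg _
    ((wb_add a (df_ct b) 1).trans (congrArg _ ((wb_ct b 1).trans (congrArg _ ?_))))))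
  exact wd_wb_comm (hu.of_le (by norm_cast)) 1 1

theorem sm_H0 (hh : ContDiffAt ℝ ∞ h z) (hT : ContDiffAt ℝ ∞ T z) (hu : ContDiffAt ℝ ∞ u z) :
    ContDiffAt ℝ ∞ (fun x => H0 h T x (u x)) z := hh.add (sm3 (cd_ct hT) (sm_hp hu) hT)

theorem dz_H0 (hh : DifferentiableAt ℝ h z) (hT : DifferentiableAt ℝ T z)
    (hu : DifferentiableAt ℝ u z) :
    dz (fun x => H0 h T x (u x)) z = H1 h T z (u z, dz u z, db u z) := by
  have hU := df_hp hu
  refine (wd_add hh (df_mul (df_mul (df_ct hT) hU) hT) 1).trans (congrArg _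
    ((dz3 (df_ct hT) hU hT).trans ?_))
  rw [dz_hp hu, dz, wd_ct hT]
  rfl

theorem dd_H0 (hh : ContDiffAt ℝ ∞ h z) (hT : ContDiffAt ℝ ∞ T z) (hu : ContDiffAt ℝ ∞ u z) :
    db (dz fun x => H0 h T x (u x)) z =
      H3 h T z (u z, dz u z, db u z) + (T z)ᴴ * hp (db (dz u) z) * T z := by
  have hU := sm_hp hu
  have e : dz (fun x => H0 h T x (u x)) =ᶠ[𝓝 z] fun x => dz h x +
      ((db T x)ᴴ * hp (u x) * T x + (T x)ᴴ * dz (fun x => hp (u x)) x * T x +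
        (T x)ᴴ * hp (u x) * dz T x) := by
    filter_upwards [sm_ev hh, sm_ev hT, sm_ev hu] with x h1 h2 h3
    rw [dz_H0 h1 h2 h3, dz_hp h3]; rfl
  have a1 := sm3 (cd_ct (sm_db hT)) hU hT
  have a2 := sm3 (cd_ct hT) (sm_dz hU) hT
  have a3 := sm3 (cd_ct hT) hU (sm_dz hT)
  have b1 := db3 (df_of (cd_ct (sm_db hT))) (df_of hU) (df_of hT)
  have b2 := db3 (df_of (cd_ct hT)) (df_of (sm_dz hU)) (df_of hT)
  have b3 := db3 (df_of (cd_ct hT)) (df_of hU) (df_of (sm_dz hT))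
  have c1 : db (fun x => (db T x)ᴴ) z = (dz (db T) z)ᴴ := wb_ct (df_of (sm_db hT)) 1
  have c2 : db (fun x => (T x)ᴴ) z = (dz T z)ᴴ := wb_ct (df_of hT) 1
  rw [c1, db_hp (df_of hu), dz_hp (df_of hu)] at b1
  rw [c2, dd_hp hu, dz_hp (df_of hu)] at b2
  rw [c2, db_hp (df_of hu), dz_hp (df_of hu)] at b3
  refine (wb_congr e 1).trans ((wb_add (df_of (sm_dz hh)) (df_of ((a1.add a2).add a3)) 1).trans ?_)
  rw [wb_add (df_of (a1.add a2)) (df_of a3), wb_add (df_of a1) (df_of a2)]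
  simp only [db] at b1 b2 b3
  rw [b1, b2, b3, H3, u1]
  abel

end jets

/-- the error as a function of the two-jet -/
def ef (ρ c ε : ℝ) (k b A0 A1 A3 : Mx m) : Mx m :=
  er ρ c ε k A0 (A0⁻¹ * (A1ᴴ * A0⁻¹ * A1 - A3) + br A0 b)

theorem ef_add {ρ c ε : ℝ} {k b A0 A1 A3 : Mx m} (hρ : ρ ≠ 0) (h0 : IsUnit A0.det) (X : Mx m) :
    ef ρ c ε k b A0 A1 (A3 + (ρ : ℂ) • X) = ef ρ c ε k b A0 A1 A3 + X := by
  have : (ρ : ℂ)⁻¹ • (ρ : ℂ) • X = X := inv_smul_smul₀ (ofReal_ne_zero.2 hρ) X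
  simp only [ef, er, Matrix.mul_sub, Matrix.mul_add, mul_nonsing_inv_cancel_left _ _ h0]
  conv_rhs => rw [← this]
  module

theorem ef_eq {ρ c ε : ℝ} {k : Mx m} {h b : ℂ → Mx m} {z : ℂ} (H : MetAt h z) :
    er ρ c ε k (h z) (hk h b z) = ef ρ c ε k (b z) (h z) (dz h z) (db (dz h) z) := by
  rw [ef, hk, cv_eq H, ct_dz (MetAt.df H) H.pos]

/-- the lower order part -/
def Ph (c : ℝ) (ρ : ℂ → ℝ) (k b h : ℂ → Mx m) (T : ℂ → Matrix ν m ℂ) (r : ℂ → Matrix m ν ℂ)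
    (q : ℂ × ℝ × Jt ν) : Mx ν := (r q.1)ᴴ * ef (ρ q.1) c q.2.1 (k q.1) (b q.1)
      (H0 h T q.1 q.2.2.1) (H1 h T q.1 q.2.2) (H3 h T q.1 q.2.2) * r q.1

theorem sm_Ph {c : ℝ} {ρ : ℂ → ℝ} {k b h : ℂ → Mx m} {T : ℂ → Matrix ν m ℂ} {r : ℂ → Matrix m ν ℂ}
    {q : ℂ × ℝ × Jt ν} (hρ : ContDiffAt ℝ ∞ ρ q.1) (ρ0 : ρ q.1 ≠ 0) (hk : ContDiffAt ℝ ∞ k q.1)
    (k0 : (k q.1).det ≠ 0) (hb : ContDiffAt ℝ ∞ b q.1) (hh : ContDiffAt ℝ ∞ h q.1)
    (hT : ContDiffAt ℝ ∞ T q.1) (hr : ContDiffAt ℝ ∞ r q.1) (h0 : (H0 h T q.1 q.2.2.1).det ≠ 0) :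
    ContDiffAt ℝ ∞ (Ph c ρ k b h T r) q := by
  have p : ∀ {F : Type} [NormedAddCommGroup F] [NormedSpace ℝ F] {f : ℂ → F},
      ContDiffAt ℝ ∞ f q.1 → ContDiffAt ℝ ∞ (fun q : ℂ × ℝ × Jt ν => f q.1) q := fun hf =>
    hf.comp q contDiffAt_fst
  have s3 : ∀ {f : ℂ → Matrix ν m ℂ} {u : ℂ × ℝ × Jt ν → Mx ν} {g : ℂ → Matrix ν m ℂ},
      ContDiffAt ℝ ∞ f q.1 → ContDiffAt ℝ ∞ u q → ContDiffAt ℝ ∞ g q.1 →
      ContDiffAt ℝ ∞ (fun x : ℂ × ℝ × Jt ν => (f x.1)ᴴ * u x * g x.1) q := fun hf hu hg =>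
    cd_mul (cd_mul (cd_ct (p hf)) hu) (p hg)
  have j0 : ContDiffAt ℝ ∞ (fun x : ℂ × ℝ × Jt ν => hp x.2.2.1) q :=
    sm_hp contDiffAt_snd.snd.fst
  have j1 : ContDiffAt ℝ ∞ (fun x : ℂ × ℝ × Jt ν => u1 x.2.2) q :=
    (contDiffAt_const (c := (2⁻¹ : ℂ))).smul (contDiffAt_snd.snd.snd.fst.add
      (cd_ct contDiffAt_snd.snd.snd.snd))
  have j2 := cd_ct j1
  have a0 : ContDiffAt ℝ ∞ (fun x : ℂ × ℝ × Jt ν => H0 h T x.1 x.2.2.1) q :=
    (p hh).add (s3 hT j0 hT)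
  have a1 : ContDiffAt ℝ ∞ (fun x : ℂ × ℝ × Jt ν => H1 h T x.1 x.2.2) q :=
    (p (sm_dz hh)).add (((s3 (sm_db hT) j0 hT).add (s3 hT j1 hT)).add (s3 hT j0 (sm_dz hT)))
  have a3 : ContDiffAt ℝ ∞ (fun x : ℂ × ℝ × Jt ν => H3 h T x.1 x.2.2) q :=
    (p (sm_db (sm_dz hh))).add (((((s3 (sm_dz (sm_db hT)) j0 hT).add (s3 (sm_db hT) j2 hT)).add
      (s3 (sm_db hT) j0 (sm_db hT))).add ((s3 (sm_dz hT) j1 hT).add (s3 hT j1 (sm_db hT)))).add
      (((s3 (sm_dz hT) j0 (sm_dz hT)).add (s3 hT j2 (sm_dz hT))).add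
        (s3 hT j0 (sm_db (sm_dz hT)))))
  have ai := cd_inv a0 h0
  have ad' := cd_ad a0 h0 a0 (p hb)
  have r0 := P275HK.cd_ofReal (p hρ)
  have e0 : ContDiffAt ℝ ∞ (fun x : ℂ × ℝ × Jt ν => x.2.1) q := contDiffAt_snd.fst
  exact cd_mul (cd_mul (cd_ct (p hr)) ((r0.inv (ofReal_ne_zero.2 ρ0)).smul (cd_mul a0
    ((r0.smul (((P275HK.cd_ofReal (contDiffAt_const.add e0)).smul contDiffAt_const).sub
      ((P275HK.cd_ofReal e0).smul (cd_mul (cd_inv (p hk) k0) a0)))).sub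
      ((cd_mul ai ((cd_mul (cd_mul (cd_ct a1) ai) a1).sub a3)).add
        ((cd_mul (p hb) ad').sub (cd_mul ad' (p hb)))))))) (p hr)

end Vale.Agent.P275FR
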