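import Vale.Agent.P275FR.Nem
import Vale.Agent.P275NA.Defs
import Mathlib.Analysis.SpecialFunctions.Pow.Integral
import Mathlib.Analysis.Convolution
import Mathlib.Analysis.Distribution.AEEqOfIntegralContDiff

/-! The Cauchy transforms as compact operators on the continuous functions of a disc; the
potential `T ψ T̄` is negative definite. -/

set_option linter.unusedSectionVars false

open scoped Topology ComplexConjugate ContDiff
open Filter Set Metric MeasureTheory Complex
open Vale.Agent.P275NA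

noncomputable section

namespace Vale.Agent.P275FR

/-- the closed disc of radius three -/
abbrev K3 : Type := closedBall (0 : ℂ) 3

/-- continuous functions on the disc -/
abbrev B3 : Type := C(K3, ℂ)

theorem rt_mem (z : ℂ) : ((3 / max 3 ‖z‖ : ℝ) : ℂ) * z ∈ closedBall (0 : ℂ) 3 := by
  have h : (0 : ℝ) < max 3 ‖z‖ := lt_max_of_lt_left (by norm_num)
  rw [mem_closedBall_zero_iff, norm_mul, norm_real, Real.norm_of_nonneg (by positivity),
    div_mul_eq_mul_div, div_le_iff₀ h]
  exact mul_le_mul_of_nonneg_left (le_max_right _ _) (by norm_num)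

/-- the retraction onto the disc -/
def rt (z : ℂ) : K3 := ⟨_, rt_mem z⟩

theorem cont_rt : Continuous rt := by
  refine Continuous.subtype_mk (Continuous.mul (continuous_ofReal.comp
    (continuous_const.div (by fun_prop) fun z => ?_)) continuous_id) _
  exact (lt_max_of_lt_left (by norm_num : (0 : ℝ) < 3)).ne'

theorem rt_of {z : ℂ} (h : ‖z‖ ≤ 3) : (rt z : ℂ) = z := by
  simp [rt, max_eq_left h]

theorem rt_val (z : K3) : rt z = z := Subtype.ext (rt_of (mem_closedBall_zero_iff.1 z.2))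

/-- extension to the plane -/
def lf {F : Type} [TopologicalSpace F] (φ : C(K3, F)) (z : ℂ) : F := φ (rt z)

theorem cont_lf {F : Type} [TopologicalSpace F] (φ : C(K3, F)) : Continuous (lf φ) :=
  φ.continuous.comp cont_rt

theorem lf_val {F : Type} [TopologicalSpace F] (φ : C(K3, F)) (z : K3) : lf φ z = φ z := by
  rw [lf, rt_val]

theorem norm_lf (φ : B3) (z : ℂ) : ‖lf φ z‖ ≤ ‖φ‖ := φ.norm_coe_le_norm _

/-- cut-off functions -/
structure Cut (γ : ℂ → ℂ) : Prop where
  ct : Continuous γ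
  out : ∀ z, 3 ≤ ‖z‖ → γ z = 0

theorem Cut.mul {γ u : ℂ → ℂ} (h : Cut γ) (hu : Continuous u) : Cut fun z => γ z * u z :=
  ⟨h.ct.mul hu, fun z hz => by rw [h.out z hz, zero_mul]⟩

theorem Cut.add {γ u : ℂ → ℂ} (h : Cut γ) (hu : Cut u) : Cut fun z => γ z + u z :=
  ⟨h.ct.add hu.ct, fun z hz => by rw [h.out z hz, hu.out z hz, add_zero]⟩

theorem Cut.conj {γ : ℂ → ℂ} (h : Cut γ) : Cut fun z => conj (γ z) :=
  ⟨continuous_conj.comp h.ct, fun z hz => by rw [h.out z hz, map_zero]⟩

theorem Cut.cs {γ : ℂ → ℂ} (h : Cut γ) : HasCompactSupport γ :=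
  HasCompactSupport.intro (isCompact_closedBall (0 : ℂ) 3) fun z hz =>
    h.out z (le_of_lt (not_le.1 fun h' => hz (mem_closedBall_zero_iff.2 h')))

theorem Cut.int {γ : ℂ → ℂ} (h : Cut γ) : Integrable γ := h.ct.integrable_of_hasCompactSupport h.cs

theorem Cut.bd {γ : ℂ → ℂ} (h : Cut γ) : ∃ M, 0 ≤ M ∧ ∀ z, ‖γ z‖ ≤ M := by
  obtain ⟨M, hM⟩ := h.ct.bounded_above_of_compact_support h.cs
  exact ⟨M, (norm_nonneg _).trans (hM 0), hM⟩

theorem Cut.lt {γ : ℂ → ℂ} (h : Cut γ) (z : ℂ) (hz : 3 < ‖z‖) : γ z = 0 := h.out z hz.le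

theorem li_inv : LocallyIntegrable (fun z : ℂ => z⁻¹) := by
  refine locallyIntegrable_of_norm_le_rpow (C := 1) (α := 1) (by simp) (by simp)
    (Eventually.of_forall fun z => ?_) measurable_inv.aestronglyMeasurable
  simp [Real.rpow_neg_one]

theorem Cut.int_ker {g : ℂ → ℂ} (h : Cut g) (z : ℂ) : Integrable fun w : ℂ => w⁻¹ • g (z - w) := by
  refine li_inv.integrable_smul_right_of_hasCompactSupport (h.ct.comp (by fun_prop)) ?_
  exact h.cs.comp_homeomorph (Homeomorph.subLeft z)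

theorem cB_eq (g : ℂ → ℂ) (z : ℂ) : cB g z = conj (cT (fun w => conj (g w)) z) := by
  simp only [cB, cT, smul_eq_mul, map_mul, map_inv₀, conj_ofReal, ← integral_conj, conj_conj]

theorem cT_add {f g : ℂ → ℂ} (hf : Cut f) (hg : Cut g) (z : ℂ) :
    cT (fun w => f w + g w) z = cT f z + cT g z := by
  simp only [cT, smul_add]
  rw [integral_add (hf.int_ker z) (hg.int_ker z), smul_add]

theorem cT_mul (c : ℂ) (g : ℂ → ℂ) (z : ℂ) : cT (fun w => c * g w) z = c * cT g z := by
  simp only [cT, smul_eq_mul, mul_left_comm _ c, integral_const_mul]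

theorem cB_add {f g : ℂ → ℂ} (hf : Cut f) (hg : Cut g) (z : ℂ) :
    cB (fun w => f w + g w) z = cB f z + cB g z := by
  simp only [cB_eq, map_add, cT_add hf.conj hg.conj]

theorem cB_mul (c : ℂ) (g : ℂ → ℂ) (z : ℂ) : cB (fun w => c * g w) z = c * cB g z := by
  simp only [cB_eq, map_mul, cT_mul, conj_conj]

theorem cont_of_holder {u : ℂ → ℂ} {C : ℝ} (h : ∀ z z', ‖u z - u z'‖ ≤ C * √‖z - z'‖) :
    Continuous u := by
  refine continuous_iff_continuousAt.2 fun z => tendsto_iff_norm_sub_tendsto_zero.2 ?_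
  refine squeeze_zero (fun _ => norm_nonneg _) (fun w => h w z) ?_
  have : Continuous fun w : ℂ => C * √‖w - z‖ := by fun_prop
  simpa using this.tendsto z

/-- the properties of the two transforms used for the operators -/
structure Tf (T : (ℂ → ℂ) → ℂ → ℂ) : Prop where
  add : ∀ {f g}, Cut f → Cut g → ∀ z, T (fun w => f w + g w) z = T f z + T g z
  mul : ∀ c g z, T (fun w => c * g w) z = c * T g z
  bd : ∃ C, 0 ≤ C ∧ ∀ g, Cut g → ∀ M, (∀ z, ‖g z‖ ≤ M) → ∀ z z', ‖T g z‖ ≤ C * M ∧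
    ‖T g z - T g z'‖ ≤ C * M * √‖z - z'‖

theorem tf_T (hC : CT) : Tf cT := by
  refine ⟨cT_add, cT_mul, ?_⟩
  obtain ⟨C, h0, h⟩ := hC ℂ 3 (by norm_num)
  refine ⟨max C 18, le_max_of_le_left h0, fun g hg M hM z z' => ?_⟩
  have hM0 : 0 ≤ M := (norm_nonneg _).trans (hM 0)
  obtain ⟨a, -, b, -⟩ := (h g hg.ct hg.lt).1 M hM z z'
  refine ⟨a.trans ?_, b.trans ?_⟩
  · exact mul_le_mul_of_nonneg_right ((by norm_num : (6 : ℝ) * 3 ≤ 18).trans (le_max_right _ _)) hM0
  · gcongr; exact le_max_left _ _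

theorem tf_B (hC : CT) : Tf cB := by
  refine ⟨cB_add, cB_mul, ?_⟩
  obtain ⟨C, h0, h⟩ := hC ℂ 3 (by norm_num)
  refine ⟨max C 18, le_max_of_le_left h0, fun g hg M hM z z' => ?_⟩
  have hM0 : 0 ≤ M := (norm_nonneg _).trans (hM 0)
  obtain ⟨-, a, -, b⟩ := (h g hg.ct hg.lt).1 M hM z z'
  refine ⟨a.trans ?_, b.trans ?_⟩
  · exact mul_le_mul_of_nonneg_right ((by norm_num : (6 : ℝ) * 3 ≤ 18).trans (le_max_right _ _)) hM0
  · gcongr; exact le_max_left _ _

theorem Tf.cont {T} (hT : Tf T) {g : ℂ → ℂ} (hg : Cut g) : Continuous (T g) := by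
  obtain ⟨C, -, h⟩ := hT.bd
  obtain ⟨M, -, hM⟩ := hg.bd
  exact cont_of_holder fun z z' => (h g hg M hM z z').2

/-- the operator `φ ↦ T (γ φ)` on the continuous functions of the disc is compact -/
theorem Tf.exists_op {T} (hT : Tf T) {γ : ℂ → ℂ} (hγ : Cut γ) : ∃ L : B3 →L[ℂ] B3,
    IsCompactOperator L ∧ ∀ φ z, L φ z = T (fun w => γ w * lf φ w) z := by
  obtain ⟨C, hC, h⟩ := hT.bd
  obtain ⟨M, hM0, hM⟩ := hγ.bd
  have hb : ∀ (φ : B3) z, ‖γ z * lf φ z‖ ≤ M * ‖φ‖ := fun φ z => by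
    rw [norm_mul]; exact mul_le_mul (hM z) (norm_lf φ z) (norm_nonneg _) hM0
  let L0 : B3 →ₗ[ℂ] B3 :=
    { toFun := fun φ => ⟨fun z => T (fun w => γ w * lf φ w) z,
        (hT.cont (hγ.mul (cont_lf φ))).comp continuous_subtype_val⟩
      map_add' := fun φ φ' => by
        ext z
        have := hT.add (hγ.mul (cont_lf φ)) (hγ.mul (cont_lf φ')) z
        simpa [lf, mul_add] using this
      map_smul' := fun c φ => by
        ext z
        have := hT.mul c (fun w => γ w * lf φ w) z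
        simpa [lf, mul_left_comm] using this }
  have hL : ∀ φ, ‖L0 φ‖ ≤ C * M * ‖φ‖ := fun φ =>
    (ContinuousMap.norm_le _ (by positivity)).2 fun z => by
      rw [mul_assoc]; exact (h _ (hγ.mul (cont_lf φ)) _ (hb φ) z z).1
  refine ⟨L0.mkContinuous _ hL, compact_of_holder _ (C * M) fun φ x y => ?_, fun _ _ => rfl⟩
  have := (h _ (hγ.mul (cont_lf φ)) _ (hb φ) x y).2
  rw [Subtype.dist_eq, dist_eq_norm, mul_assoc C]
  exact this

theorem cT_eq (g : ℂ → ℂ) (z : ℂ) : cT g z = (Real.pi : ℂ)⁻¹ * ∫ u, (z - u)⁻¹ * g u := by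
  rw [cT, smul_eq_mul, ← integral_sub_left_eq_self _ _ z]
  simp

/-- the Cauchy transform is antisymmetric -/
theorem cT_anti {f g : ℂ → ℂ} (hf : Cut f) (hg : Cut g) :
    ∫ z, cT f z * g z = -∫ z, f z * cT g z := by
  let κ : ℂ → ℂ := (closedBall (0 : ℂ) 6).indicator fun w => w⁻¹
  have hκ : Integrable κ :=
    (integrable_indicator_iff measurableSet_closedBall).2
      (li_inv.integrableOn_isCompact (isCompact_closedBall _ _))
  obtain ⟨M, -, hM⟩ := hg.bd
  have h1 : Integrable (fun p : ℂ × ℂ => f p.2 * κ (p.1 - p.2)) (volume.prod volume) :=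
    hf.int.convolution_integrand (ContinuousLinearMap.mul ℂ ℂ) hκ
  have h2 : Integrable (fun p : ℂ × ℂ => f p.2 * κ (p.1 - p.2) * g p.1) (volume.prod volume) :=
    h1.mul_bdd (hg.ct.comp continuous_fst).aestronglyMeasurable (Eventually.of_forall fun p => hM _)
  have e : ∀ z u, f u * κ (z - u) * g z = (z - u)⁻¹ * f u * g z := fun z u => by
    by_cases h : z - u ∈ closedBall (0 : ℂ) 6
    · simp only [κ, indicator_of_mem h]; ring
    · by_cases hu : 3 ≤ ‖u‖
      · simp [hf.out u hu]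
      · have : 3 ≤ ‖z‖ := by
          rw [mem_closedBall_zero_iff] at h
          have := norm_sub_le z u
          linarith
        simp [hg.out z this]
  have h3 : Integrable (Function.uncurry fun z u : ℂ => (z - u)⁻¹ * f u * g z)
      (volume.prod volume) := h2.congr (Eventually.of_forall fun p => e p.1 p.2)
  have h4 := integral_integral_swap h3
  simp only [cT_eq, mul_assoc, integral_const_mul, ← integral_mul_const] at h4 ⊢
  rw [h4, ← integral_const_mul, ← integral_neg]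
  refine integral_congr_ae (Eventually.of_forall fun u => ?_)
  simp only
  rw [mul_left_comm, ← integral_const_mul (f u), ← mul_neg, ← integral_neg]
  congr 2
  ext z
  rw [← neg_sub u z, inv_neg]; ring

/-- the quadratic form of the potential -/
theorem pot_form {ψ : ℂ → ℝ} {v : ℂ → ℂ} (hC : CT) (hψ : Cut fun z => (ψ z : ℂ)) (hv : Cut v) :
    ∫ z, cT (fun w => ψ w * cB v w) z * conj (v z) = -((∫ z, ψ z * ‖cB v z‖ ^ 2 : ℝ) : ℂ) := by
  rw [cT_anti (hψ.mul ((tf_B hC).cont hv)) hv.conj, ← integral_complex_ofReal]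
  congr 2
  ext z
  have : cT (fun w => conj (v w)) z = conj (cB v z) := by rw [cB_eq, conj_conj]
  rw [this, mul_assoc, mul_conj, normSq_eq_norm_sq]
  push_cast; rfl

theorem pot_zero {ψ : ℂ → ℝ} {v : ℂ → ℂ} (hC : CT) (hψ : Cut fun z => (ψ z : ℂ)) (hv : Cut v)
    (h0 : ∀ z, 0 ≤ ψ z) (h : ∫ z, ψ z * ‖cB v z‖ ^ 2 = 0) {z : ℂ} (hz : ψ z ≠ 0) : v z = 0 := by
  have hc : Continuous ψ := (continuous_re.comp hψ.ct).congr fun z => ofReal_re _
  have hB := (tf_B hC).cont hv
  have h1 : Continuous fun z => ψ z * ‖cB v z‖ ^ 2 := by fun_prop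
  have h2 : HasCompactSupport fun z => ψ z * ‖cB v z‖ ^ 2 := by
    refine HasCompactSupport.mul_right (hψ.cs.mono fun z hz => ?_)
    simpa using hz
  have h4 : ∀ w, ψ w ≠ 0 → cB v w = 0 := fun w hw => by
    by_contra hne
    have := h1.integral_pos_of_hasCompactSupport_nonneg_nonzero (μ := volume) (x := w) h2
      (fun z => mul_nonneg (h0 z) (sq_nonneg _)) (mul_ne_zero hw (by simpa using hne))
    exact this.ne' h
  have hU : IsOpen {w | ψ w ≠ 0} := isOpen_ne_fun hc continuous_const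
  obtain ⟨_, -, hh⟩ := hC ℂ 3 (by norm_num)
  have hW := (hh _ hv.conj.ct hv.conj.lt).2.1
  have h5 := hU.ae_eq_zero_of_integral_contDiff_smul_eq_zero (f := fun w => conj (v w)) (μ := volume)
    (hv.conj.ct.locallyIntegrable.locallyIntegrableOn _) (fun φ h1 h2 h3 => by
      have hφ : ContDiff ℝ 1 fun w => (φ w : ℂ) :=
        (ofRealCLM.contDiff.comp (contDiff_infty.1 h1 1) :)
      have hs : tsupport (fun w => (φ w : ℂ)) = tsupport φ := by
        simp only [tsupport]; congr 1; ext w; simp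
      have := hW (fun w => (φ w : ℂ)) hφ (by rw [HasCompactSupport, hs]; exact h2) (subset_univ _)
      have h6 : ∀ w, db (fun w => (φ w : ℂ)) w • cT (fun w => conj (v w)) w = 0 := fun w => by
        by_cases hw : w ∈ tsupport φ
        · have := h4 w (h3 hw)
          rw [cB_eq, map_eq_zero] at this
          rw [this, smul_zero]
        · have e : (fun w => (φ w : ℂ)) =ᶠ[𝓝 w] fun _ => 0 := by
            filter_upwards [notMem_tsupport_iff_eventuallyEq.1 hw] with x hx
            simp [hx]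
          rw [db, P281Z.Hm.wb_congr e]
          simp [P281Z.Hm.wb]
      simp only [h6, integral_zero, zero_eq_neg] at this
      simpa using this)
  have h7 : EqOn (fun w => conj (v w)) (fun _ => 0) {w | ψ w ≠ 0} :=
    Measure.eqOn_open_of_ae_eq (μ := volume) ((ae_restrict_iff' hU.measurableSet).2 h5) hU
      hv.conj.ct.continuousOn continuousOn_const
  simpa using h7 hz

end Vale.Agent.P275FR
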