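import Vale.Agent.P275FR.Fred
import Mathlib.Topology.ContinuousMap.Bounded.ArzelaAscoli
import Mathlib.Topology.ContinuousMap.Compact
import Mathlib.Analysis.Calculus.MeanValue
import Mathlib.Analysis.SpecialFunctions.Pow.Real

/-! Compact operators into spaces of continuous functions, superposition operators, and the
solvability lemma used by the continuity method. -/

set_option linter.unusedSectionVars false

namespace Vale.Agent.P275FR

open Filter Topology Set Metric

section compact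
variable {𝕜 : Type*} [NontriviallyNormedField 𝕜]
  {Z : Type*} [NormedAddCommGroup Z] [NormedSpace 𝕜 Z]

/-- Arzelà-Ascoli for operators -/
theorem compact_of_holder {X F : Type*} [MetricSpace X] [CompactSpace X] [NormedAddCommGroup F]
    [NormedSpace 𝕜 F] [ProperSpace F] (L : Z →L[𝕜] C(X, F)) (C : ℝ)
    (h : ∀ w x y, ‖L w x - L w y‖ ≤ C * ‖w‖ * √(dist x y)) : IsCompactOperator L := by
  let e := ContinuousMap.isometryEquivBoundedOfCompact X F
  let S : Set (BoundedContinuousFunction X F) := (fun w => e (L w)) '' closedBall 0 1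
  have hS : IsCompact (closure S) := by
    refine BoundedContinuousFunction.arzela_ascoli (closedBall (0 : F) ‖L‖)
      (isCompact_closedBall _ _) S ?_ ?_
    · rintro _ x ⟨w, hw, rfl⟩
      rw [mem_closedBall_zero_iff] at hw ⊢
      calc ‖L w x‖ ≤ ‖L w‖ := (L w).norm_coe_le_norm x
        _ ≤ ‖L‖ * ‖w‖ := L.le_opNorm w
        _ ≤ ‖L‖ := mul_le_of_le_one_right (norm_nonneg _) hw
    · refine Metric.equicontinuous_of_continuity_modulus (fun t => |C| * √t) ?_ _ ?_
      · have : Continuous fun t : ℝ => |C| * √t := by fun_prop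
        simpa using this.tendsto 0
      · rintro x y ⟨_, w, hw, rfl⟩
        rw [mem_closedBall_zero_iff] at hw
        rw [dist_eq_norm]
        refine (h w x y).trans (mul_le_mul_of_nonneg_right ?_ (Real.sqrt_nonneg _))
        calc C * ‖w‖ ≤ |C| * ‖w‖ := mul_le_mul_of_nonneg_right (le_abs_self C) (norm_nonneg _)
          _ ≤ |C| := mul_le_of_le_one_right (abs_nonneg _) hw
  refine (isCompactOperator_iff_image_closedBall_subset_compact (L : Z →ₗ[𝕜] C(X, F))
    one_pos).2 ⟨e.symm '' closure S, hS.image e.symm.continuous, ?_⟩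
  rintro _ ⟨w, hw, rfl⟩
  exact ⟨e (L w), subset_closure ⟨w, hw, rfl⟩, by simp⟩

theorem compact_sum {Y ι : Type*} [NormedAddCommGroup Y] [NormedSpace 𝕜 Y] (s : Finset ι)
    (L : ι → Z →L[𝕜] Y) (h : ∀ i ∈ s, IsCompactOperator (L i)) :
    IsCompactOperator (∑ i ∈ s, L i : Z →L[𝕜] Y) := by
  classical
  induction s using Finset.induction_on with
  | empty => simpa using isCompactOperator_zero
  | insert a s ha ih =>
    rw [Finset.sum_insert ha]
    exact (h a (Finset.mem_insert_self _ _)).add (ih fun i hi => h i (Finset.mem_insert_of_mem hi))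

theorem compact_pi {ι : Type*} [Fintype ι] {Y : ι → Type*} [∀ i, NormedAddCommGroup (Y i)]
    [∀ i, NormedSpace 𝕜 (Y i)] (L : Z →L[𝕜] ∀ i, Y i)
    (h : ∀ i, IsCompactOperator ((ContinuousLinearMap.proj i).comp L)) : IsCompactOperator L := by
  classical
  have : L = ∑ i, (ContinuousLinearMap.single 𝕜 Y i).comp ((ContinuousLinearMap.proj i).comp L) := by
    ext w j
    simp [Finset.sum_apply]
  rw [this]
  exact compact_sum _ _ fun i _ => (h i).clm_comp (ContinuousLinearMap.single 𝕜 Y i)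

theorem compact_prod {Y Y' : Type*} [NormedAddCommGroup Y] [NormedSpace 𝕜 Y]
    [NormedAddCommGroup Y'] [NormedSpace 𝕜 Y'] {L : Z →L[𝕜] Y} {L' : Z →L[𝕜] Y'}
    (h : IsCompactOperator L) (h' : IsCompactOperator L') : IsCompactOperator (L.prod L') := by
  have : L.prod L' = (ContinuousLinearMap.inl 𝕜 Y Y').comp L +
      (ContinuousLinearMap.inr 𝕜 Y Y').comp L' := by ext <;> simp
  rw [this]
  exact (h.clm_comp (ContinuousLinearMap.inl 𝕜 Y Y')).add
    (h'.clm_comp (ContinuousLinearMap.inr 𝕜 Y Y'))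

theorem compact_comp {Y Y' : Type*} [NormedAddCommGroup Y] [NormedSpace 𝕜 Y]
    [NormedAddCommGroup Y'] [NormedSpace 𝕜 Y'] (M : Y →L[𝕜] Y') {L : Z →L[𝕜] Y}
    (h : IsCompactOperator L) : IsCompactOperator (M.comp L) := h.clm_comp M

theorem compact_comp' {Y Y' : Type*} [NormedAddCommGroup Y] [NormedSpace 𝕜 Y]
    [NormedAddCommGroup Y'] [NormedSpace 𝕜 Y'] {M : Y →L[𝕜] Y'} (L : Z →L[𝕜] Y)
    (h : IsCompactOperator M) : IsCompactOperator (M.comp L) := h.comp_clm L

theorem compact_add {Y : Type*} [NormedAddCommGroup Y] [NormedSpace 𝕜 Y] {L L' : Z →L[𝕜] Y}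
    (h : IsCompactOperator L) (h' : IsCompactOperator L') : IsCompactOperator (L + L') := h.add h'
end compact

section nem
variable {K : Type*} [TopologicalSpace K] [CompactSpace K]
  {X Y : Type*} [NormedAddCommGroup X] [NormedSpace ℝ X] [NormedAddCommGroup Y] [NormedSpace ℝ Y]

/-- the superposition operator -/
noncomputable def nem (Φ : X → Y) (u : C(K, X)) : C(K, Y) := ContinuousMap.mkD (fun z => Φ (u z)) 0

theorem nem_apply {Φ : X → Y} {O : Set X} (hΦ : ContinuousOn Φ O) {u : C(K, X)}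
    (hu : ∀ z, u z ∈ O) (z : K) : nem Φ u z = Φ (u z) := by
  rw [nem, ContinuousMap.mkD_apply_of_continuous]
  exact hΦ.comp_continuous u.continuous hu

theorem eventually_range {O : Set X} (hO : IsOpen O) {u : C(K, X)} (hu : ∀ z, u z ∈ O) :
    ∀ᶠ v in 𝓝 u, ∀ z, v z ∈ O := by
  have := (ContinuousMap.isOpen_setOfPred_mapsTo (X := K) isCompact_univ hO).mem_nhds
    (show u ∈ {f : C(K, X) | MapsTo f univ O} from fun z _ => hu z)
  filter_upwards [this] with v hv z using hv (mem_univ z)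

/-- superposition with a `C¹` map is strictly differentiable -/
theorem nem_strict {Φ : X → Y} {O : Set X} (hO : IsOpen O) (hΦ : ContDiffOn ℝ 1 Φ O)
    {u : C(K, X)} (hu : ∀ z, u z ∈ O) : ∃ L : C(K, X) →L[ℝ] C(K, Y),
    HasStrictFDerivAt (nem Φ) L u := by
  have hD : ContinuousOn (fderiv ℝ Φ) O := hΦ.continuousOn_fderiv_of_isOpen hO le_rfl
  let D : C(K, X →L[ℝ] Y) := ⟨fun z => fderiv ℝ Φ (u z), hD.comp_continuous u.continuous hu⟩
  let L0 : C(K, X) →ₗ[ℝ] C(K, Y) :=
    { toFun := fun v => ⟨fun z => D z (v z), by fun_prop⟩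
      map_add' := fun v w => by ext z; simp
      map_smul' := fun c v => by ext z; simp }
  obtain ⟨c, hc0, hc⟩ : ∃ c : ℝ, 0 ≤ c ∧ ∀ z, ‖D z‖ ≤ c := by
    obtain ⟨c, hc⟩ := (isCompact_range D.continuous).isBounded.exists_norm_le
    exact ⟨|c|, abs_nonneg c, fun z => (hc _ ⟨z, rfl⟩).trans (le_abs_self c)⟩
  have hL : ∀ v, ‖L0 v‖ ≤ c * ‖v‖ := fun v =>
    (ContinuousMap.norm_le _ (by positivity)).2 fun z =>
      ((D z).le_opNorm _).trans (mul_le_mul (hc z) (v.norm_coe_le_norm z) (norm_nonneg _) hc0)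
  refine ⟨L0.mkContinuous _ hL, ?_⟩
  rw [hasStrictFDerivAt_iff_isLittleO, Asymptotics.isLittleO_iff]
  intro ε hε
  have hS : IsCompact (range u) := isCompact_range u.continuous
  have hSO : range u ⊆ O := by rintro _ ⟨z, rfl⟩; exact hu z
  obtain ⟨δ, hδ, hδ'⟩ : ∃ δ > 0, ∀ x ∈ range u, ∀ y, dist x y < δ →
      y ∈ O ∧ ‖fderiv ℝ Φ y - fderiv ℝ Φ x‖ ≤ ε := by
    have hc : ∀ x ∈ range u, ContinuousAt (fderiv ℝ Φ) x := fun x hx =>
      hD.continuousAt (hO.mem_nhds (hSO hx))
    obtain ⟨δ₁, h₁, h₁'⟩ := hS.exists_thickening_subset_open hO hSO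
    have := hS.uniformContinuousAt_of_continuousAt (fderiv ℝ Φ) hc (dist_mem_uniformity hε)
    obtain ⟨δ₂, h₂, h₂'⟩ := Metric.mem_uniformity_dist.1 this
    refine ⟨min δ₁ δ₂, lt_min h₁ h₂, fun x hx y hy => ⟨h₁' (mem_thickening_iff.2 ⟨x, hx, ?_⟩), ?_⟩⟩
    · rw [dist_comm]; exact hy.trans_le (min_le_left _ _)
    · have := h₂' (hy.trans_le (min_le_right _ _)) hx
      rw [← dist_eq_norm, dist_comm]; exact le_of_lt this
  have hb : ball u δ ×ˢ ball u δ ∈ 𝓝 (u, u) := prod_mem_nhds (ball_mem_nhds _ hδ) (ball_mem_nhds _ hδ)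
  filter_upwards [hb] with p hp
  have hin : ∀ v ∈ ball u δ, ∀ z, v z ∈ ball (u z) δ := fun v hv z =>
    lt_of_le_of_lt (ContinuousMap.dist_apply_le_dist z) hv
  have hO' : ∀ v ∈ ball u δ, ∀ z, v z ∈ O := fun v hv z =>
    (hδ' _ ⟨z, rfl⟩ _ (by rw [dist_comm]; exact hin v hv z)).1
  refine (ContinuousMap.norm_le _ (by positivity)).2 fun z => ?_
  have key := Convex.norm_image_sub_le_of_norm_hasFDerivWithin_le' (𝕜 := ℝ) (f := Φ)
    (f' := fderiv ℝ Φ) (φ := fderiv ℝ Φ (u z)) (s := ball (u z) δ) (C := ε)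
    (fun y hy => (((hΦ.contDiffAt (hO.mem_nhds (hδ' _ ⟨z, rfl⟩ y
      (by rw [dist_comm]; exact hy)).1)).differentiableAt one_ne_zero).hasFDerivAt).hasFDerivWithinAt)
    (fun y hy => (hδ' _ ⟨z, rfl⟩ y (by rw [dist_comm]; exact hy)).2) (convex_ball _ _)
    (hin _ hp.2 z) (hin _ hp.1 z)
  have e1 : (nem Φ p.1 - nem Φ p.2 - L0.mkContinuous _ hL (p.1 - p.2)) z =
      Φ (p.1 z) - Φ (p.2 z) - fderiv ℝ Φ (u z) (p.1 z - p.2 z) := by
    simp only [ContinuousMap.sub_apply, nem_apply hΦ.continuousOn (hO' _ hp.1),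
      nem_apply hΦ.continuousOn (hO' _ hp.2)]
    rfl
  rw [e1]
  exact key.trans (mul_le_mul_of_nonneg_left ((p.1 - p.2).norm_coe_le_norm z) hε.le)
end nem

section solve
variable {P : Type*} [NormedAddCommGroup P] [NormedSpace ℝ P] [CompleteSpace P]
  {E : Type*} [NormedAddCommGroup E] [NormedSpace ℝ E] [CompleteSpace E]
  {Y : Type*} [NormedAddCommGroup Y] [NormedSpace ℝ Y]

/-- Solvability of `u + F (p, A u) = 0` near a solution `u = 0`, `p = p0`; injectivity of the
linearisation is asked in the form of a nonlinear stability property. -/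
theorem solve (A : E →L[ℝ] Y) (hA : IsCompactOperator A) (F : P × Y → E) (p0 : P)
    {F' : P × Y →L[ℝ] E} (hF : HasStrictFDerivAt F F' (p0, 0)) (h0 : F (p0, 0) = 0)
    (hi : ∀ v, (∀ (u : ℕ → E) (t : ℕ → ℝ), Tendsto u atTop (𝓝 v) → Tendsto t atTop (𝓝 0) →
      (∀ n, t n ≠ 0) →
      Tendsto (fun n => (t n)⁻¹ • (t n • u n + F (p0, A (t n • u n)))) atTop (𝓝 0)) → v = 0) :
    ∀ V ∈ 𝓝 (0 : E), ∀ᶠ p in 𝓝 p0, ∃ u ∈ V, u + F (p, A u) = 0 := by
  let B : P × E →L[ℝ] P × Y := (ContinuousLinearMap.id ℝ P).prodMap A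
  have hB : ∀ v : P × E, B v = (v.1, A v.2) := fun v => rfl
  let G : P × E → E := fun v => v.2 + F (B v)
  have hd : HasStrictFDerivAt G (ContinuousLinearMap.snd ℝ P E + F'.comp B) (p0, 0) := by
    refine hasStrictFDerivAt_snd.add ?_
    have h1 : HasStrictFDerivAt F F' (B (p0, 0)) := by rw [hB]; simpa using hF
    exact h1.comp (p0, 0) B.hasStrictFDerivAt
  have hG0 : G (p0, 0) = 0 := by simp [G, hB, h0]
  let K : E →L[ℝ] E := (F'.comp (ContinuousLinearMap.inr ℝ P Y)).comp A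
  have hK : IsCompactOperator K := hA.clm_comp (F'.comp (ContinuousLinearMap.inr ℝ P Y))
  set L : E →L[ℝ] E := (ContinuousLinearMap.snd ℝ P E + F'.comp B) ∘L ContinuousLinearMap.inr ℝ P E
    with hL
  have hinv : L.IsInvertible := by
    refine isInvertible_of_compact _ K hK (fun x => by simp [L, K, hB]) (fun x hx => hi x ?_)
    intro u t hu ht ht0
    have h1 : HasFDerivAt (fun w : E => G (p0, w)) L 0 :=
      hd.hasFDerivAt.comp (0 : E) (hasFDerivAt_prodMk_right p0 (0 : E))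
    have h2 : Tendsto (fun n => t n • u n) atTop (𝓝 0) := by simpa using ht.smul hu
    have h3 := h1.isLittleO.comp_tendsto h2
    have h4 : (fun n => (t n)⁻¹ • (G (p0, t n • u n) - G (p0, 0) - L (t n • u n - 0))) =o[atTop]
        fun n => (t n)⁻¹ • (t n • u n - 0) :=
      (Asymptotics.isBigO_refl (fun n => (t n)⁻¹) atTop).smul_isLittleO h3
    have h5 : Tendsto (fun n => (t n)⁻¹ • (t n • u n - 0)) atTop (𝓝 x) := by
      refine hu.congr fun n => ?_
      simp [smul_smul, ht0 n]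
    have h6 := (Asymptotics.isLittleO_one_iff ℝ).1 (h4.trans_isBigO (h5.isBigO_one ℝ))
    have h7 : Tendsto (fun n => L (u n)) atTop (𝓝 0) := by
      rw [← hx]; exact (L.continuous.tendsto x).comp hu
    have h8 := h6.add h7
    rw [add_zero] at h8
    refine h8.congr fun n => ?_
    rw [hG0, sub_zero, sub_zero, map_smul, smul_sub, smul_smul, inv_mul_cancel₀ (ht0 n), one_smul,
      sub_add_cancel]
    rfl
  intro V hV
  have h1 := hd.tendsto_implicitFunctionOfProdDomain hinv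
  filter_upwards [hd.eventually_apply_implicitFunctionOfProdDomain hinv, h1 hV] with p hp hp'
  exact ⟨_, hp', by rw [hG0] at hp; exact hp⟩
end solve

end Vale.Agent.P275FR
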