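import Vale.Agent.P275FR.Jet
import Vale.Agent.P275NA.Tr

/-! The nonlinear operator of the continuity method. -/

set_option linter.unusedSectionVars false

open scoped Matrix.Norms.Operator Topology ComplexOrder ContDiff ComplexConjugate
open Filter Set Matrix Complex Metric
open Vale.Agent.P281Z.Hm Vale.Agent.P275NA Vale.Agent.P275GC Vale.Agent.P275HK

noncomputable section

namespace Vale.Agent.P275FR

section gen

variable {X F M Z : Type} [TopologicalSpace X] [CompactSpace X] [NormedAddCommGroup F]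
  [NormedSpace ℝ F] [NormedAddCommGroup M] [NormedSpace ℝ M] [NormedAddCommGroup Z]
  [NormedSpace ℝ Z]

theorem exists_pw (f : X → F →L[ℝ] M) (hf : Continuous f) :
    ∃ L : CM X F →L[ℝ] CM X M, ∀ u x, L u x = f x (u x) := by
  let L0 : CM X F →ₗ[ℝ] CM X M :=
    { toFun := fun u => ⟨fun x => f x (u x), hf.clm_apply u.continuous⟩
      map_add' := fun u v => ContinuousMap.ext fun x => map_add (f x) _ _
      map_smul' := fun c u => ContinuousMap.ext fun x => map_smul (f x) _ _ }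
  refine ⟨L0.mkContinuous ‖(⟨f, hf⟩ : C(X, F →L[ℝ] M))‖ fun u => ?_, fun _ _ => rfl⟩
  exact (ContinuousMap.norm_le _ (by positivity)).2 fun x => ((f x).le_opNorm _).trans
    (mul_le_mul (ContinuousMap.norm_coe_le_norm ⟨f, hf⟩ x) (u.norm_coe_le_norm x) (norm_nonneg _)
      (by positivity))

theorem exists_trip {L1 L2 L3 : Z →L[ℝ] CM X F} (h1 : IsCompactOperator L1)
    (h2 : IsCompactOperator L2) (h3 : IsCompactOperator L3) : ∃ L : Z →L[ℝ] CM X (F × F × F),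
      IsCompactOperator L ∧ ∀ W x, L W x = (L1 W x, L2 W x, L3 W x) :=
  ⟨(cl ℝ X (.inl ℝ _ _)).comp L1 + ((cl ℝ X ((ContinuousLinearMap.inr ℝ _ _).comp
    (.inl ℝ _ _))).comp L2 + (cl ℝ X ((ContinuousLinearMap.inr ℝ _ _).comp (.inr ℝ _ _))).comp L3),
    compact_add (compact_comp _ h1) (compact_add (compact_comp _ h2) (compact_comp _ h3)),
    fun W x => by
      show (L1 W x, (0 : F × F)) + ((0, L2 W x, 0) + (0, 0, L3 W x)) = _
      simp⟩

theorem exists_F {κ : Type} [Fintype κ] (Q : Z →L[ℝ] Z) (Gl : κ → CM K3 M →L[ℝ] Z)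
    {Φ : κ → ℂ × ℝ × F → M} {O : κ → Set (ℂ × ℝ × F)} (hO : ∀ i, IsOpen (O i))
    (hΦ : ∀ i, ContDiffOn ℝ 1 (Φ i) (O i)) : ∃ N : ℝ × Z × (κ → CM K3 F) → Z, ∀ q,
      (∀ i z, (p1 z, q.1, q.2.2 i z) ∈ O i) → (∃ N', HasStrictFDerivAt (𝕜 := ℝ) N N' q) ∧
      (∀ᶠ q' : ℝ × Z × (κ → CM K3 F) in 𝓝 q, ∀ i z, (p1 z, q'.1, q'.2.2 i z) ∈ O i) ∧
      ∃ φ : κ → CM K3 M, (∀ i z, φ i z = Φ i (p1 z, q.1, q.2.2 i z)) ∧
        N q = Q q.2.1 + ∑ i, Gl i (φ i) := by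
  let c0 : CM K3 (ℂ × ℝ × F) := ⟨fun z => (p1 z, 0), cont_p1.prodMk continuous_const⟩
  let L : κ → (ℝ × Z × (κ → CM K3 F)) →L[ℝ] CM K3 (ℂ × ℝ × F) := fun i =>
    (cl ℝ K3 ((ContinuousLinearMap.inr ℝ _ _).comp (.inl ℝ _ _))).comp
      ((ContinuousLinearMap.const ℝ K3).comp (.fst ℝ _ _)) +
    (cl ℝ K3 ((ContinuousLinearMap.inr ℝ _ _).comp (.inr ℝ _ _))).comp
      ((ContinuousLinearMap.proj i).comp ((ContinuousLinearMap.snd ℝ _ _).comp (.snd ℝ _ _)))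
  have e : ∀ i q z, (c0 + L i q) z = (p1 z, q.1, q.2.2 i z) := fun i q z => by
    show (p1 z, (0 : ℝ × F)) + ((0, q.1, 0) + (0, 0, q.2.2 i z)) = _
    simp
  refine ⟨fun q => Q q.2.1 + ∑ i, Gl i (nem (Φ i) (c0 + L i q)), fun q hq => ?_⟩
  have hq' : ∀ i z, (c0 + L i q) z ∈ O i := fun i z => e i q z ▸ hq i z
  have d : ∀ i, HasStrictFDerivAt (fun q => c0 + L i q) (L i) q := fun i =>
    (L i).hasStrictFDerivAt.const_add c0
  choose N' hN using fun i => nem_strict (hO i) (hΦ i) (hq' i)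
  refine ⟨⟨_, (Q.comp ((ContinuousLinearMap.fst ℝ _ _).comp (.snd ℝ _ _))).hasStrictFDerivAt.add
    (HasStrictFDerivAt.fun_sum fun i _ => (Gl i).hasStrictFDerivAt.comp q ((hN i).comp q (d i)))⟩,
    eventually_all.2 fun i => ((d i).continuousAt.eventually
      (eventually_range (hO i) (hq' i))).mono fun q' h z => e i q' z ▸ h z,
    fun i => nem (Φ i) (c0 + L i q), fun i z => ?_, rfl⟩
  rw [nem_apply (hΦ i).continuousOn (hq' i), e]

end gen

variable {ν : Type} [Fintype ν] [DecidableEq ν]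

section td

variable {m α : Type} [Fintype m] [DecidableEq m] {F : Filter α} {h : ℂ → Mx m}
  {T T' : ℂ → Matrix ν m ℂ} {ζ : α → ℂ} {z : ℂ}

theorem td_mul {l m n : Type} [Fintype l] [Fintype m] [Fintype n] {u : α → Matrix l m ℂ}
    {v : α → Matrix m n ℂ} {a : Matrix l m ℂ} {b : Matrix m n ℂ} (hu : Tendsto u F (𝓝 a))
    (hv : Tendsto v F (𝓝 b)) : Tendsto (fun x => u x * v x) F (𝓝 (a * b)) :=
  Tendsto.comp (g := fun p : Matrix l m ℂ × Matrix m n ℂ => p.1 * p.2) (f := fun x => (u x, v x))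
    (an_mul (𝕜 := ℝ) (z := (a, b)) analyticAt_fst analyticAt_snd).continuousAt (hu.prodMk_nhds hv)

theorem td3 {u : α → Mx ν} {u0 : Mx ν} (hT : ContinuousAt T z) (hT' : ContinuousAt T' z)
    (hζ : Tendsto ζ F (𝓝 z)) (hu : Tendsto u F (𝓝 u0)) :
    Tendsto (fun x => (T (ζ x))ᴴ * u x * T' (ζ x)) F (𝓝 ((T z)ᴴ * u0 * T' z)) :=
  td_mul (td_mul ((continuous_id.matrix_conjTranspose.tendsto (T z)).comp (hT.tendsto.comp hζ)) hu)
    (hT'.tendsto.comp hζ)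

theorem td_hp {u : α → Mx ν} {u0 : Mx ν} (hu : Tendsto u F (𝓝 u0)) :
    Tendsto (fun x => hp (u x)) F (𝓝 (hp u0)) := (hpL.continuous.tendsto u0).comp hu

theorem td_H0 {u : α → Mx ν} {u0 : Mx ν} (hh : ContinuousAt h z) (hT : ContinuousAt T z)
    (hζ : Tendsto ζ F (𝓝 z)) (hu : Tendsto u F (𝓝 u0)) :
    Tendsto (fun x => H0 h T (ζ x) (u x)) F (𝓝 (H0 h T z u0)) :=
  (hh.tendsto.comp hζ).add (td3 hT hT hζ (td_hp hu))

theorem td_H1 {j : α → Jt ν} {j0 : Jt ν} (hh : ContDiffAt ℝ ∞ h z) (hT : ContDiffAt ℝ ∞ T z)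
    (hζ : Tendsto ζ F (𝓝 z)) (hj : Tendsto j F (𝓝 j0)) :
    Tendsto (fun x => H1 h T (ζ x) (j x)) F (𝓝 (H1 h T z j0)) := by
  have a := td_hp ((continuous_fst.tendsto j0).comp hj)
  have c : Continuous (u1 (ν := ν)) := (continuous_snd.fst.add
    continuous_snd.snd.matrix_conjTranspose).const_smul (2⁻¹ : ℂ)
  exact ((sm_dz hh).continuousAt.tendsto.comp hζ).add (((td3 (sm_db hT).continuousAt
    hT.continuousAt hζ a).add (td3 hT.continuousAt hT.continuousAt hζ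
      ((c.tendsto j0).comp hj))).add (td3 hT.continuousAt (sm_dz hT).continuousAt hζ a))

end td

section alg

variable {m : Type} [Fintype m] [DecidableEq m] {ι : Matrix ν m ℂ} {r : Matrix m ν ℂ} {π : Mx ν}

theorem alg1 (h2 : ι * r = π) (h3 : πᴴ = π) (X : Mx ν) : rᴴ * (ιᴴ * X * ι) * r = π * X * π := by
  have : rᴴ * ιᴴ = π := by rw [← conjTranspose_mul, h2, h3]
  rw [Matrix.mul_assoc ιᴴ, ← Matrix.mul_assoc rᴴ, this, Matrix.mul_assoc, Matrix.mul_assoc, h2,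
    Matrix.mul_assoc]

theorem hp_pi (h3 : πᴴ = π) (X : Mx ν) : hp (π * hp X * π) = π * hp X * π := hp_of (by
  rw [conjTranspose_mul, conjTranspose_mul, h3, hp_ct, Matrix.mul_assoc])

theorem pi_pi (h1 : r * ι = 1) (h2 : ι * r = π) : π * π = π := by
  rw [← h2, Matrix.mul_assoc, ← Matrix.mul_assoc r, h1, Matrix.one_mul]

theorem qq (h3 : πᴴ = π) (h4 : π * π = π) (X : Mx ν) :
    π * hp (π * hp X * π) * π = π * hp X * π := by
  rw [hp_pi h3, ← Matrix.mul_assoc, ← Matrix.mul_assoc, h4, Matrix.mul_assoc, h4]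

theorem alg2 (h1 : r * ι = 1) (h2 : ι * r = π) (h3 : πᴴ = π) {E : Mx m} (hE : Eᴴ = E) {G W : Mx ν}
    (e : G = W - π * hp W * π + rᴴ * E * r) :
    ιᴴ * hp G * ι = E ∧ G - π * hp G * π = W - π * hp W * π := by
  have a1 : π * ι = ι := by rw [← h2, Matrix.mul_assoc, h1, Matrix.mul_one]
  have a2 : ∀ X : Matrix ν m ℂ, ιᴴ * (π * X) = ιᴴ * X := fun X => by
    rw [← Matrix.mul_assoc, ← h3, ← conjTranspose_mul, a1]
  have a3 : ∀ X : Mx m, ιᴴ * (rᴴ * X) = X := fun X => by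
    rw [← Matrix.mul_assoc, ← conjTranspose_mul, h1, conjTranspose_one, Matrix.one_mul]
  have a4 : hp G = hp W - π * hp W * π + rᴴ * E * r := by
    have := hp_add (W - π * hp W * π) (π * hp W * π)
    rw [sub_add_cancel, hp_pi h3] at this
    rw [e, hp_add, hp_gram, hp_of hE, eq_sub_of_add_eq this.symm]
  have a5 : ιᴴ * hp G * ι = E := by
    simp only [a4, Matrix.mul_add, Matrix.add_mul, Matrix.mul_sub, Matrix.sub_mul, Matrix.mul_assoc,
      a1, a2, a3, h1, Matrix.mul_one, sub_self, zero_add]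
  refine ⟨a5, ?_⟩
  rw [← alg1 h2 h3 (hp G), a5, e, add_sub_cancel_right]

end alg

variable {C : Type} [TopologicalSpace C] [T2Space C] [CompactSpace C] {A : At C} {n : ℕ}
  {l : Cy A ℂ} {w : Fm A ℝ} {g : Cy A (Mn n)} {a k h : Fm A (Mn n)} {c ε : ℝ}
  {ι : Fm A (Matrix ν (Fin n) ℂ)} {r : Fm A (Matrix (Fin n) ν ℂ)} {π : CM C (Mx ν)}
  {i j : Fin A.N} {z : ℂ}

theorem ex_pt (A : At C) (x : C) : ∃ i z, ‖z‖ < 1 ∧ x = (A.e i).symm z := by
  obtain ⟨i, h1, h2⟩ := A.cov x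
  exact ⟨i, _, h2, ((A.e i).left_inv h1).symm⟩

theorem smo_freq (A : At C) {F : Type} [NormedAddCommGroup F] [NormedSpace ℝ F] (v : CM C F) :
    ∃ᶠ u : CM C F in 𝓝 v, Smo A u := nhds_basis_closedBall.frequently_iff.2 fun δ hδ => by
  obtain ⟨u, h1, h2⟩ := At.exists_smooth_near (A := A) v.continuous hδ
  exact ⟨⟨u, At.cont_of_pl h1.ct⟩, (ContinuousMap.dist_le hδ.le).2 fun x =>
    (dist_eq_norm _ _).trans_le (h2 x), fun i z hz => h1.at hz i⟩

theorem td_loc {α F : Type} [NormedAddCommGroup F] {L : Filter α} {f : α → CM C F} {f0 : CM C F}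
    {ζ : α → ℂ} (hf : Tendsto f L (𝓝 f0)) (hz : z ∈ ball (0 : ℂ) A.R) (hζ : Tendsto ζ L (𝓝 z)) :
    Tendsto (fun p => loc A (f p) i (ζ p)) L (𝓝 (loc A f0 i z)) :=
  (continuous_eval.tendsto (f0, (A.e i).symm z)).comp (hf.prodMk_nhds
    ((At.contAt_symm hz).tendsto.comp hζ))

theorem td_rt {α F : Type} [NormedAddCommGroup F] {L : Filter α} {f : α → CM K3 F} {f0 : CM K3 F}
    {ζ : α → ℂ} (hf : Tendsto f L (𝓝 f0)) (hζ : Tendsto ζ L (𝓝 z)) :
    Tendsto (fun p => f p (rt (ζ p))) L (𝓝 (f0 (rt z))) :=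
  (continuous_eval.tendsto (f0, rt z)).comp (hf.prodMk_nhds ((cont_rt.tendsto z).comp hζ))

theorem Emb.pp (E : Emb A g ι r π) (x : C) : π x * π x = π x := by
  obtain ⟨i, z, h, rfl⟩ := ex_pt A x
  exact pi_pi (E.ri i z (unit_ball h.le)) (E.ir i z (unit_ball h.le))

theorem Emb.exists_Q (E : Emb A g ι r π) : ∃ Q : CM C (Mx ν) →L[ℝ] CM C (Mx ν),
    (∀ u x, Q u x = π x * hp (u x) * π x) ∧ ∀ u : CM C (Mx ν), Smo A u → Smo A (Q u) := by
  obtain ⟨Q, hQ⟩ := exists_pw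
    (fun x => (ContinuousLinearMap.mulLeftRight ℝ (Mx ν) (π x) (π x)).comp hpL)
    ((((ContinuousLinearMap.mulLeftRight ℝ (Mx ν)).continuous.comp π.continuous).clm_apply
      π.continuous).clm_comp continuous_const)
  refine ⟨Q, hQ, fun u hu i z hz => ?_⟩
  have p : ContDiffAt ℝ ∞ (loc A π i) z :=
    (cd_mul (E.si.at hz i) (E.sr.at hz i)).congr_of_eventuallyEq
      (eventually_of_mem (isOpen_ball.mem_nhds hz) fun x hx => (E.ir i x hx).symm)
  have e : loc A (Q u) i = fun x => loc A π i x * hp (loc A u i x) * loc A π i x :=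
    funext fun x => hQ _ _
  rw [e]
  exact cd_mul (cd_mul p (sm_hp (hu i z hz))) p

variable (A) in
/-- the perturbed metric -/
def hU (h : Fm A (Mn n)) (ι : Fm A (Matrix ν (Fin n) ℂ)) (U : C → Mx ν) : Fm A (Mn n) :=
  fun i z => H0 (h i) (ι i) z (loc A U i z)

theorem hU_mt (G : A.Cc g) (H : A.MtM ∞ g h) (E : Emb A g ι r π) {U : C → Mx ν}
    (h1 : ∀ i z, ‖z‖ < 1 → (hU A h ι U i z).PosDef ∧ ContDiffAt ℝ ∞ (hU A h ι U i) z) :
    A.MtM ∞ g (hU A h ι U) := by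
  have tr : ∀ i j, ∀ z ∈ A.O i j,
      hU A h ι U j (A.tr i j z) = (g i j z)ᴴ * hU A h ι U i z * g i j z := fun i j z hz => by
    simp only [hU, H0, H.tr i j z hz, E.ti i j z hz, loc_tr U hz, conjTranspose_mul,
      Matrix.mul_add, Matrix.add_mul, Matrix.mul_assoc]
  have tr' : ∀ i j, ∀ z ∈ A.O i j, hU A h ι U i z = (g j i (A.tr i j z))ᴴ *
      hU A h ι U j (A.tr i j z) * g j i (A.tr i j z) := fun i j z hz => by
    have := tr j i _ (At.tr_mem hz)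
    rwa [At.tr_inv hz] at this
  refine ⟨fun i z hz => ?_, fun i z hz => ?_, tr⟩ <;> obtain ⟨j, a, b⟩ := At.ex_unit hz i
  · have s := sm_hol (F := Mn n) ((G.an (At.tr_mem a)).comp (At.an_tr a))
    exact ((cd_mul (cd_mul (cd_ct s) ((h1 j _ b).2.comp z (sm_hol (At.an_tr a))))
      s).congr_of_eventuallyEq (eventually_of_mem (At.O_nhds a) (tr' i j))).contDiffWithinAt
  · rw [tr' i j z a]
    exact (h1 j _ b).1.conjTranspose_mul_mul_same (inj_of_det (G.det_ne (At.tr_mem a)))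

/-- the domain of the lower order part -/
def Om (h : Fm A (Mn n)) (ι : Fm A (Matrix ν (Fin n) ℂ)) (i : Fin A.N) : Set (ℂ × ℝ × Jt ν) :=
  {q | q.1 ∈ ball (0 : ℂ) A.R ∧ (H0 (h i) (ι i) q.1 q.2.2.1).PosDef}

theorem Om_open (H : A.MtM ∞ g h) (E : Emb A g ι r π) (i : Fin A.N) : IsOpen (Om h ι i) :=
  isOpen_iff_mem_nhds.2 fun q hq => by
    have b : ∀ᶠ y : ℂ × ℝ × Jt ν in 𝓝 q, y.1 ∈ ball (0 : ℂ) A.R :=
      continuousAt_fst.eventually (isOpen_ball.mem_nhds hq.1)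
    refine b.and (pd_ev (f := fun y : ℂ × ℝ × Jt ν => H0 (h i) (ι i) y.1 y.2.2.1)
      (td_H0 (H.sm.at hq.1 i).continuousAt (E.si.at hq.1 i).continuousAt continuousAt_fst
        continuous_snd.snd.fst.continuousAt) (b.mono fun y hy => ?_) hq.2)
    simp only [H0, conjTranspose_add, conjTranspose_mul, conjTranspose_conjTranspose, hp_ct,
      (H.pos i _ hy).1.eq, Matrix.mul_assoc]

theorem Ph_sm (T : Tw A l w) (G : Hig A l g a) (K : A.MtM ∞ g k) (H : A.MtM ∞ g h)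
    (E : Emb A g ι r π) (i : Fin A.N) :
    ContDiffOn ℝ 1 (Ph c (A.ρ i) (k i) (sa A w a i) (h i) (ι i) (r i)) (Om h ι i) := fun q hq =>
  ((sm_Ph (At.sm_ρ.at hq.1 i) (At.ρ_pos hq.1).ne' (K.sm.at hq.1 i) (pd_ne (K.pos i _ hq.1))
    ((cd_sa T G.hol).at hq.1 i) (H.sm.at hq.1 i) (E.si.at hq.1 i) (E.sr.at hq.1 i)
    (pd_ne hq.2)).of_le (by norm_cast)).contDiffWithinAt

/-- the error in terms of the lower order part -/
theorem err_eq (H : A.MtM ∞ g h) (E : Emb A g ι r π) {U : C → Mx ν} (hU' : Smo A U)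
    (H' : A.MtM ∞ g (hU A h ι U)) (hz : z ∈ ball (0 : ℂ) A.R) {X : Mx ν}
    (e : db (dz (loc A U i)) z = ro A i z • X) :
    (r i z)ᴴ * EE A w a k (hU A h ι U) c ε i z * r i z =
      Ph c (A.ρ i) (k i) (sa A w a i) (h i) (ι i) (r i)
        (z, ε, loc A U i z, dz (loc A U i) z, db (loc A U i) z) +
      loc A π i z * hp X * loc A π i z := by
  have a := H.sm.at hz i
  have b := E.si.at hz i
  have e1 := dz_H0 (df_of a) (df_of b) (df_of (hU' i z hz))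
  have e2 := dd_H0 a b (hU' i z hz)
  rw [e, ro, hp_smul, Matrix.mul_smul, Matrix.smul_mul] at e2
  rw [EE, HK, ef_eq (met_at H' hz i), ← alg1 (E.ir i z hz) (E.herm _), Ph, ← Matrix.add_mul,
    ← Matrix.mul_add]
  refine congrArg (fun Y => (r i z)ᴴ * Y * r i z) (Eq.trans ?_
    (ef_add (At.ρ_pos hz).ne' (pd_det (H'.pos i z hz)) _))
  rw [← e1, ← e2]
  rfl

end Vale.Agent.P275FR
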