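import Vale.Agent.P275FR.Op1
import Vale.Agent.P275CT.Reg

/-! Openness of the continuity method. -/

set_option linter.unusedSectionVars false

open scoped Matrix.Norms.Operator Topology ComplexOrder ContDiff ComplexConjugate
open Filter Set Matrix Complex Metric
open Vale.Agent.P281Z.Hm Vale.Agent.P275NA Vale.Agent.P275GC Vale.Agent.P275HK

noncomputable section

namespace Vale.Agent.P275FR

variable {ν : Type} [Fintype ν] [DecidableEq ν]
  {C : Type} [TopologicalSpace C] [T2Space C] [CompactSpace C] {A : At C} {n : ℕ}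
  {l : Cy A ℂ} {w : Fm A ℝ} {g : Cy A (Mn n)} {a k h : Fm A (Mn n)} {c ε : ℝ}
  {ι : Fm A (Matrix ν (Fin n) ℂ)} {r : Fm A (Matrix (Fin n) ν ℂ)} {π : CM C (Mx ν)}
  {P R Q : CM C (Mx ν) →L[ℝ] CM C (Mx ν)} {D Db : Fin A.N → CM C (Mx ν) →L[ℝ] CM K3 (Mx ν)}
  {Gl : Fin A.N → CM K3 (Mx ν) →L[ℝ] CM C (Mx ν)}

variable (A) in
/-- `Y` is the value of the nonlinear operator at `W`, `h'` the metric defined by `W` -/
def Id (w : Fm A ℝ) (a k : Fm A (Mn n)) (c ε : ℝ) (r : Fm A (Matrix (Fin n) ν ℂ))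
    (π W Y : CM C (Mx ν)) (h' : Fm A (Mn n)) : Prop := ∀ i, ∀ z ∈ ball (0 : ℂ) A.R,
  loc A Y i z = loc A W i z - loc A π i z * hp (loc A W i z) * loc A π i z +
    (r i z)ᴴ * EE A w a k h' c ε i z * r i z

theorem key (T : Tw A l w) (G : Hig A l g a) (K : A.MtM ∞ g k) (H : A.MtM ∞ g h)
    (E : Emb A g ι r π) (M : MPar A P R D Db Gl) (hQ : ∀ u x, Q u x = π x * hp (u x) * π x)
    {W : CM C (Mx ν)} (hW : Smo A (Q W)) (H' : A.MtM ∞ g (hU A h ι (P (Q W))))
    {φ : Fin A.N → CM K3 (Mx ν)} (hφ : ∀ i z, ‖z‖ ≤ 1 → φ i (rt z) =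
      Ph c (A.ρ i) (k i) (sa A w a i) (h i) (ι i) (r i)
        (z, ε, loc A (P (Q W)) i z, D i (Q W) (rt z), Db i (Q W) (rt z))) :
    Id A w a k c ε r π W (W + (Q (R (Q W)) + ∑ j, Gl j (φ j))) (hU A h ι (P (Q W))) := by
  intro i z hz
  obtain ⟨x, hx⟩ : ∃ x, x = (A.e i).symm z := ⟨_, rfl⟩
  obtain ⟨S, hS⟩ : ∃ S, S = (r i z)ᴴ * EE A w a k (hU A h ι (P (Q W))) c ε i z * r i z := ⟨_, rfl⟩
  have e : ∀ j, Gl j (φ j) x = A.ext j (fun z => et A j z * et A j z) x •
      (S - Q W x - Q (R (Q W)) x) := fun j => by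
    rw [M.gl]
    by_cases hj : x ∈ (A.e j).source
    · have o : z ∈ A.O i j := ⟨hz, by rwa [hx] at hj⟩
      have ey : A.e j x = A.tr i j z := by rw [hx]; rfl
      rw [ext_of _ hj, ext_of _ hj, ey]
      by_cases hy : ‖A.tr i j z‖ ≤ 1
      · have yb := At.tr_ball o
        have := err_eq (w := w) (a := a) (k := k) (c := c) (ε := ε) H E (M.sm _ hW) H' yb
          (M.dd _ hW j _ yb)
        rw [M.dz _ hW j _ hy, M.db _ hW j _ hy, ← hφ j _ hy, E.tr j i _ (At.tr_mem o), At.tr_inv o,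
          conjTranspose_mul, loc_tr _ o, loc_tr _ o, loc, loc, ← hx, ContinuousMap.add_apply,
          hp_add, Matrix.mul_add, Matrix.add_mul, hQ W, qq (E.herm x) (E.pp x), ← hQ, ← hQ] at this
        rw [hS, EE_inv T G K H' o, sub_sub, eq_sub_iff_add_eq.2 this.symm]
        simp only [Matrix.mul_assoc]
      · rw [et_sup A j _ (not_le.1 hy), zero_mul, zero_smul, zero_smul]
    · rw [ext_not _ hj, ext_not _ hj, zero_smul]
  rw [← hS, loc, loc, loc, ← hx, ← hQ]
  rw [ContinuousMap.add_apply, ContinuousMap.add_apply, ContinuousMap.sum_apply,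
    Finset.sum_congr rfl fun j _ => e j, ← Finset.sum_smul, sum_et, one_smul]
  abel

theorem Id.two (K : A.MtM ∞ g k) (E : Emb A g ι r π) {W Y : CM C (Mx ν)} {h' : Fm A (Mn n)}
    (H' : A.MtM ∞ g h') (I : Id A w a k c ε r π W Y h') {i : Fin A.N} {z : ℂ}
    (hz : z ∈ ball (0 : ℂ) A.R) : (ι i z)ᴴ * hp (loc A Y i z) * ι i z = EE A w a k h' c ε i z ∧
      loc A Y i z - loc A π i z * hp (loc A Y i z) * loc A π i z =
        loc A W i z - loc A π i z * hp (loc A W i z) * loc A π i z :=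
  alg2 (E.ri i z hz) (E.ir i z hz) (E.herm _) (EE_herm K H' hz) (I i z hz)

theorem inj [Nonempty C] (G : A.Cc g) (K : A.MtM ∞ g k) (H : A.MtM ∞ g h) (hε : 0 < ε)
    (Eq : Eqn A w a k h c ε) (E : Emb A g ι r π) (M : MPar A P R D Db Gl)
    (hQ : ∀ u x, Q u x = π x * hp (u x) * π x) {u e : ℕ → CM C (Mx ν)} {v : CM C (Mx ν)}
    {t : ℕ → ℝ} (hu : Tendsto u atTop (𝓝 v)) (he : Tendsto e atTop (𝓝 0))
    (t0 : Tendsto t atTop (𝓝 0)) (t1 : ∀ m, t m ≠ 0)
    (Hs : ∀ m, A.MtM ∞ g (hU A h ι (P (Q (t m • u m)))))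
    (I : ∀ m, Id A w a k c ε r π (t m • u m) (t m • e m) (hU A h ι (P (Q (t m • u m))))) :
    v = 0 := by
  have sm : ∀ (t : ℝ) (f : CM C (Mx ν)) i z, loc A (t • f) i z = (t : ℂ) • loc A f i z :=
    fun _ _ _ _ => rfl
  have e1 : ∀ m, u m - Q (u m) = e m - Q (e m) := fun m => ContinuousMap.ext fun x => by
    obtain ⟨i, z, hz, rfl⟩ := ex_pt A x
    have := ((I m).two K E (Hs m) (i := i) (unit_ball hz.le)).2
    rw [sm, sm, hp_smul, hp_smul, Matrix.mul_smul, Matrix.mul_smul, Matrix.smul_mul,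
      Matrix.smul_mul, ← smul_sub, ← smul_sub] at this
    rw [ContinuousMap.sub_apply, ContinuousMap.sub_apply, hQ, hQ]
    exact (smul_right_injective _ (ofReal_ne_zero.2 (t1 m)) this).symm
  have e2 : Q v = v := by
    have a := hu.sub ((Q.continuous.tendsto v).comp hu)
    have b := he.sub ((Q.continuous.tendsto 0).comp he)
    rw [map_zero, sub_zero] at b
    exact (sub_eq_zero.1 (tendsto_nhds_unique a (b.congr fun m => (e1 m).symm))).symm
  have hP := (P.continuous.tendsto _).comp ((Q.continuous.tendsto v).comp hu)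
  rw [e2] at hP
  have z0 := cmp (B := fun m i z => (ι i z)ᴴ * hp (loc A (P (Q (u m))) i z) * ι i z)
    (E' := fun m i z => (ι i z)ᴴ * hp (loc A (e m) i z) * ι i z)
    (B0 := fun i z => (ι i z)ᴴ * hp (loc A (P v) i z) * ι i z) G K H hε Eq t0 t1 Hs
    (fun m i z _ => by
      rw [hU, H0, map_smul, map_smul, sm, hp_smul, Matrix.mul_smul, Matrix.smul_mul])
    (fun m i z hz => by
      rw [← ((I m).two K E (Hs m) hz).1, sm, hp_smul, Matrix.mul_smul, Matrix.smul_mul])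
    fun i z hz => by
      have ci := (E.si.at hz i).continuousAt
      refine ⟨by simp only [conjTranspose_mul, conjTranspose_conjTranspose, hp_ct,
        Matrix.mul_assoc], td3 ci ci tendsto_snd (td_hp (td_loc (hP.comp tendsto_fst) hz
          tendsto_snd)), ?_⟩
      have := td3 ci ci tendsto_snd (td_hp (td_loc (i := i) (L := atTop ×ˢ 𝓝 z)
        (he.comp tendsto_fst) hz tendsto_snd))
      rwa [show hp (loc A (0 : CM C (Mx ν)) i z) = 0 from hp_of conjTranspose_zero,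
        Matrix.mul_zero, Matrix.zero_mul] at this
  refine M.neg v fun x => ?_
  have e3 : v x = π x * hp (v x) * π x := by rw [← hQ, e2]
  have e4 : (v x)ᴴ = v x := by rw [e3, ← hp_pi (E.herm x), hp_ct]
  have e5 : π x * hp (P v x) * π x = 0 := by
    obtain ⟨i, z, hz, rfl⟩ := ex_pt A x
    have hz := unit_ball (A := A) hz.le
    have := alg1 (E.ir i z hz) (E.herm _) (hp (loc A (P v) i z))
    rw [z0 i hz, Matrix.mul_zero, Matrix.zero_mul] at this
    exact this.symm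
  rw [e4, ← tr_hp e4, e3, Matrix.mul_assoc, Matrix.mul_assoc, trace_mul_comm, Matrix.mul_assoc,
    e5, Matrix.mul_zero, trace_zero, zero_re]

theorem regu (T : Tw A l w) (G : Hig A l g a) (K : A.MtM ∞ g k) (H : A.MtM ∞ g h)
    (E : Emb A g ι r π) (M : MPar A P R D Db Gl) {V W Y : ℕ → CM C (Mx ν)} {v : CM C (Mx ν)}
    (hV : Tendsto V atTop (𝓝 v)) (hY : Tendsto Y atTop (𝓝 0)) (sV : ∀ m, Smo A (V m))
    (Hs : ∀ m, A.MtM ∞ g (hU A h ι (P (V m))))
    (I : ∀ m, Id A w a k c ε r π (W m) (Y m) (hU A h ι (P (V m))))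
    (p : ∀ i z, ‖z‖ < 1 → (hU A h ι (P v) i z).PosDef) :
    A.MtM ∞ g (hU A h ι (P v)) ∧ Eqn A w a k (hU A h ι (P v)) c ε := by
  have ub : ∀ {z : ℂ}, z ∈ ball (0 : ℂ) 1 → z ∈ ball (0 : ℂ) A.R := fun hz =>
    ball_subset_ball A.hR.le hz
  have hP := (P.continuous.tendsto _).comp hV
  have main : ∀ i, ContDiffOn ℝ ∞ (hU A h ι (P v) i) (ball 0 1) ∧ ∀ z ∈ ball (0 : ℂ) 1,
      cv (hU A h ι (P v) i) z = rh (A.ρ i z) c ε (k i z) (hU A h ι (P v) i z) -
        br (hU A h ι (P v) i z) (sa A w a i z) := fun i => by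
    have pp : ∀ z ∈ ball (0 : ℂ) 1, (hU A h ι (P v) i z).PosDef := fun z hz =>
      p i z (mem_ball_zero_iff.1 hz)
    have sΓ : ∀ z ∈ ball (0 : ℂ) 1, ContDiffAt ℝ ∞ (fun q : ℂ × Mn n =>
        rh (A.ρ i q.1) c ε (k i q.1) q.2 - br q.2 (sa A w a i q.1)) (z, hU A h ι (P v) i z) :=
      fun z hz => by
        have b := ((cd_sa T G.hol).at (ub hz) i).comp (z, hU A h ι (P v) i z) contDiffAt_fst
        have d := cd_ad (z := (z, hU A h ι (P v) i z)) contDiffAt_snd (pd_ne (pp z hz))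
          contDiffAt_snd b
        exact ((P275HK.cd_ofReal ((At.sm_ρ.at (ub hz) i).comp _ contDiffAt_fst)).smul
          (contDiffAt_const.sub ((contDiffAt_const (c := (ε : ℂ))).smul (cd_mul (cd_inv (f := fun q : ℂ × Mn n => k i q.1)
            ((K.sm.at (ub hz) i).comp _ contDiffAt_fst) (pd_ne (K.pos i z (ub hz))))
              contDiffAt_snd)))).sub ((cd_mul b d).sub (cd_mul d b))
    have c0 : ∀ z ∈ ball (0 : ℂ) 1, ContinuousAt (hU A h ι (P v) i) z := fun z hz =>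
      td_H0 (H.sm.at (ub hz) i).continuousAt (E.si.at (ub hz) i).continuousAt tendsto_id
        (td_loc tendsto_const_nhds (ub hz) tendsto_id)
    have q0 : ∀ z ∈ ball (0 : ℂ) 1, Cq (fun m => hU A h ι (P (V m)) i) z (hU A h ι (P v) i z) :=
      fun z hz => td_H0 (H.sm.at (ub hz) i).continuousAt (E.si.at (ub hz) i).continuousAt
        tendsto_snd (td_loc (hP.comp tendsto_fst) (ub hz) tendsto_snd)
    obtain ⟨r1, r2⟩ := P275CT.reg_lim (s := fun m => hU A h ι (P (V m)) i)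
      (p := fun z => H1 (h i) (ι i) z (loc A (P v) i z, D i v (rt z), Db i v (rt z))) isOpen_ball
      (fun m => (((Hs m).sm i).mono (ball_subset_ball A.hR.le)).of_le (by norm_cast))
      (fun m z hz => (Hs m).pos i z (ub hz)) pp sΓ
      (of_cq (fun z hz => (c0 z hz).continuousWithinAt) q0)
      (of_cq (fun z hz => ContinuousAt.continuousWithinAt (td_H1 (H.sm.at (ub hz) i)
        (E.si.at (ub hz) i) tendsto_id ((td_loc tendsto_const_nhds (ub hz) tendsto_id).prodMk_nhds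
          ((td_rt tendsto_const_nhds tendsto_id).prodMk_nhds
            (td_rt tendsto_const_nhds tendsto_id))))) fun z hz => Cq.congr'
        (u := fun m z => H1 (h i) (ι i) z
          (loc A (P (V m)) i z, D i (V m) (rt z), Db i (V m) (rt z)))
        (td_H1 (H.sm.at (ub hz) i) (E.si.at (ub hz) i) tendsto_snd
          ((td_loc (hP.comp tendsto_fst) (ub hz) tendsto_snd).prodMk_nhds
          ((td_rt ((((D i).continuous.tendsto _).comp hV).comp tendsto_fst) tendsto_snd).prodMk_nhds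
            (td_rt ((((Db i).continuous.tendsto _).comp hV).comp tendsto_fst) tendsto_snd))))
        isOpen_ball hz fun m y hy => by
          rw [← M.dz _ (sV m) i y (mem_ball_zero_iff.1 hy).le,
            ← M.db _ (sV m) i y (mem_ball_zero_iff.1 hy).le]
          exact (dz_H0 (df_of (H.sm.at (ub hy) i)) (df_of (E.si.at (ub hy) i))
            (df_of (M.sm _ (sV m) i y (ub hy)))).symm)
      (of_cq (fun z hz => ((sΓ z hz).continuousAt.comp_of_eq (continuousAt_id.prodMk (c0 z hz))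
        rfl).continuousWithinAt) fun z hz => by
        have ci := (E.si.at (ub hz) i).continuousAt
        have a1 := td3 ci ci tendsto_snd (td_hp (td_loc (i := i) (L := atTop ×ˢ 𝓝 z)
          (hY.comp tendsto_fst) (ub hz) tendsto_snd))
        have a2 := ((sΓ z hz).continuousAt.tendsto.comp (tendsto_snd.prodMk_nhds (q0 z hz))).sub
          ((((P275HK.cd_ofReal (At.sm_ρ.at (ub hz) i)).continuousAt.tendsto).comp tendsto_snd).smul
            (td_mul ((q0 z hz).minv (pd_ne (pp z hz))) a1))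
        rw [show hp (loc A (0 : CM C (Mx ν)) i z) = 0 from hp_of conjTranspose_zero,
          Matrix.mul_zero, Matrix.zero_mul, Matrix.mul_zero, smul_zero, sub_zero] at a2
        refine Cq.congr' (u := fun m y => rh (A.ρ i y) c ε (k i y) (hU A h ι (P (V m)) i y) -
          br (hU A h ι (P (V m)) i y) (sa A w a i y) - (A.ρ i y : ℂ) • ((hU A h ι (P (V m)) i y)⁻¹ *
            ((ι i y)ᴴ * hp (loc A (Y m) i y) * ι i y))) a2 isOpen_ball hz fun m y hy => ?_
        rw [((I m).two K E (Hs m) (ub hy)).1, sub_right_comm, ← HK_eq (Hs m) (ub hy), HK, hk,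
          add_sub_cancel_right])
    exact ⟨r1, fun z hz => (r2 z hz).1⟩
  have H' := hU_mt G.cc H E fun i z hz => ⟨p i z hz, (main i).1.contDiffAt
    (isOpen_ball.mem_nhds (mem_ball_zero_iff.2 hz))⟩
  refine ⟨H', eqn_unit chg T G K H' fun i z hz => ?_⟩
  rw [HK, hk, (main i).2 z (mem_ball_zero_iff.2 hz), sub_add_cancel, rh]

theorem exists_L (M : MPar A P R D Db Gl) (Q : CM C (Mx ν) →L[ℝ] CM C (Mx ν)) :
    ∃ L : CM C (Mx ν) →L[ℝ] CM C (Mx ν) × (Fin A.N → CM K3 (Jt ν)), IsCompactOperator L ∧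
      (∀ W, (L W).1 = R (Q W)) ∧
      ∀ W i z, (L W).2 i z = (loc A (P (Q W)) i (p1 z), D i (Q W) z, Db i (Q W) z) := by
  choose J cJ hJ using fun i => exists_trip (compact_comp
    (ContinuousMap.compCLM ℝ (Mx ν) (sy A i)) M.cP) (M.cD i) (M.cDb i)
  exact ⟨(R.comp Q).prod (ContinuousLinearMap.pi fun i => (J i).comp Q),
    compact_prod (compact_comp' Q M.cR) (compact_pi _ fun i => compact_comp' Q (cJ i)),
    fun _ => rfl, fun W i z => hJ i (Q W) z⟩

theorem opn_aux [Nonempty C] (T : Tw A l w) (G : Hig A l g a) (K : A.MtM ∞ g k) (H : A.MtM ∞ g h)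
    (hε : 0 < ε) (Eq : Eqn A w a k h c ε) (E : Emb A g ι r π) (M : MPar A P R D Db Gl) :
    ∀ᶠ ε' in 𝓝 ε, ∃ h', A.MtM ∞ g h' ∧ Eqn A w a k h' c ε' := by
  obtain ⟨Q, hQ, sQ⟩ := E.exists_Q
  obtain ⟨L, cL, L1, L2⟩ := exists_L M Q
  obtain ⟨N, hN⟩ := exists_F (F := Jt ν) (M := Mx ν) (O := Om h ι)
    (Φ := fun i => Ph c (A.ρ i) (k i) (sa A w a i) (h i) (ι i) (r i)) Q Gl
    (fun i => Om_open H E i) fun i => Ph_sm T G K H E i
  obtain ⟨Ok, hOk⟩ : ∃ Ok : CM C (Mx ν) → Prop, ∀ W, Ok W ↔ ∀ i (z : K3),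
    (hU A h ι (P (Q W)) i (p1 z)).PosDef := ⟨_, fun _ => Iff.rfl⟩
  have ok : ∀ s W, (∀ i z, (p1 z, s, (L W).2 i z) ∈ Om h ι i) ↔ Ok W := fun s W =>
    (forall₂_congr fun i z => by
      rw [L2]; exact and_iff_right (unit_ball (p1_le z))).trans (hOk W).symm
  have ok1 : ∀ W, Ok W → ∀ i z, ‖z‖ < 1 → (hU A h ι (P (Q W)) i z).PosDef := fun W o i z hz =>
    p1_rt hz.le ▸ (hOk W).1 o i (rt z)
  have oko : ∀ W, Ok W → ∀ᶠ W' in 𝓝 W, Ok W' := fun W o =>
    (((continuous_const.prodMk L.continuous).tendsto W).eventually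
      (hN (0, L W) ((ok 0 W).2 o)).2.1).mono fun W' h' => (ok 0 W').1 h'
  have id : ∀ s W, Ok W → Smo A W → A.MtM ∞ g (hU A h ι (P (Q W))) ∧
      Id A w a k c s r π W (W + N (s, L W)) (hU A h ι (P (Q W))) := fun s W o sW => by
    have H' := hU_mt G.cc H E fun i z hz => ⟨ok1 W o i z hz, sm_H0 (H.sm.at (unit_ball hz.le) i)
      (E.si.at (unit_ball hz.le) i) (M.sm _ (sQ W sW) i z (unit_ball hz.le))⟩
    obtain ⟨-, -, φ, h1, h2⟩ := hN (s, L W) ((ok s W).2 o)
    rw [h2, L1]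
    refine ⟨H', key T G K H E M hQ (sQ W sW) H' fun i z hz => ?_⟩
    rw [h1, L2, p1_rt hz]
  have h00 : hU A h ι (P (Q 0)) = h := by
    funext i z
    rw [map_zero, map_zero, hU, H0, show hp (loc A (0 : CM C (Mx ν)) i z) = 0 from
      hp_of conjTranspose_zero, Matrix.mul_zero, Matrix.zero_mul, add_zero]
  have o0 : Ok 0 := (hOk 0).2 fun i z => by rw [h00]; exact H.pos i _ (unit_ball (p1_le z))
  obtain ⟨⟨N', hN'⟩, -⟩ := hN (ε, L 0) ((ok ε 0).2 o0)
  have n0 : N (ε, L 0) = 0 := ContinuousMap.ext fun x => by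
    obtain ⟨i, z, hz, rfl⟩ := ex_pt A x
    have := (id ε 0 o0 fun _ _ _ => contDiffAt_const).2 i z (unit_ball hz.le)
    rw [h00, EE_zero Eq (unit_ball hz.le), zero_add, show hp (loc A
      (0 : CM C (Mx ν)) i z) = 0 from hp_of conjTranspose_zero] at this
    simpa [loc] using this
  rw [map_zero] at hN' n0
  have cs : ∀ (F : Type) [NormedAddCommGroup F] [CompleteSpace F], CompleteSpace (CM C F) :=
    fun F _ _ => inferInstance
  have := cs (Mx ν)
  refine (solve L cL N ε hN' n0 (fun v hv => ?_) _ (oko 0 o0)).mono fun s ⟨W, o, hW⟩ => ?_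
  · have c1 : Tendsto (fun q : ℝ × CM C (Mx ν) => q.1 • q.2) (𝓝 (0, v)) (𝓝 0) :=
      (continuous_smul.tendsto' _ _ (zero_smul _ _))
    obtain ⟨S, hS, V, hV, sv⟩ := mem_nhds_prod_iff.1 (c1.eventually (oko 0 o0))
    obtain ⟨u, u1, u2⟩ := exists_seq_forall_of_frequently ((smo_freq A v).and_eventually hV)
    obtain ⟨t, t1, t2⟩ := exists_seq_forall_of_frequently
      (((eventually_mem_nhdsWithin (a := (0 : ℝ)) (s := {0}ᶜ)).frequently.filter_mono
        nhdsWithin_le_nhds).and_eventually hS)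
    have i1 := fun m => id ε (t m • u m) (sv (mk_mem_prod (t2 m).2 (u2 m).2))
      fun i z hz => ((u2 m).1 i z hz).const_smul (t m)
    exact inj G.cc K H hε Eq E M hQ u1 (hv u t u1 t1 fun m => (t2 m).1) t1 (fun m => (t2 m).1)
      (fun m => (i1 m).1) fun m => by rw [smul_inv_smul₀ (t2 m).1]; exact (i1 m).2
  · obtain ⟨u, u1, u2⟩ := exists_seq_forall_of_frequently
      ((smo_freq A W).and_eventually (oko W o))
    obtain ⟨⟨N'', hN''⟩, -⟩ := hN (s, L W) ((ok s W).2 o)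
    have := u1.add (hN''.continuousAt.tendsto.comp
      (((continuous_const.prodMk L.continuous).tendsto W).comp u1))
    rw [hW] at this
    exact ⟨_, regu T G K H E M ((Q.continuous.tendsto W).comp u1) this (fun m => sQ _ (u2 m).1)
      (fun m => (id s _ (u2 m).2 (u2 m).1).1) (fun m => (id s _ (u2 m).2 (u2 m).1).2) (ok1 W o)⟩

/-- **openness** -/
theorem opn [Nonempty C] (A : At C) : OPEN A := fun n l w g a k h c ε T G K H hε Eq => by
  obtain ⟨ι, r, π, E⟩ := exists_emb G.cc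
  obtain ⟨P, R, D, Db, Gl, M⟩ := exists_mpar (ν := Fin A.N × Fin n) A
  exact opn_aux T G K H hε Eq E M

end Vale.Agent.P275FR
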