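import Vale.Agent.P275FR.Ext
import Vale.Agent.P275GC.Pu

/-! A negative definite parametrix of the Laplacian on a compact Riemann surface. -/

set_option linter.unusedSectionVars false

open scoped Topology ComplexConjugate ContDiff
open Filter Set Metric MeasureTheory Complex
open Vale.Agent.P275NA Vale.Agent.P275GC Vale.Agent.P281Z.Hm

noncomputable section

namespace Vale.Agent.P275FR

/-- the outer cut-off -/
def bq : ContDiffBump (0 : ℂ) := ⟨2, 3, two_pos, by norm_num⟩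

def ps (z : ℂ) : ℂ := (bq z : ℝ)

theorem ps_sm : ContDiff ℝ ∞ ps := ofRealCLM.contDiff.comp bq.contDiff

theorem ps_one {z : ℂ} (h : ‖z‖ ≤ 2) : ps z = 1 := by
  rw [ps, bq.one_of_mem_closedBall (by simpa [bq] using h), ofReal_one]

theorem ps_cut : Cut ps := ⟨ps_sm.continuous, fun z hz => by
  rw [ps, bq.zero_of_le_dist (by simpa [bq] using hz), ofReal_zero]⟩

theorem dz_ps {z : ℂ} (h : ‖z‖ ≤ 1) : dz ps z = 0 := by
  have e : ps =ᶠ[𝓝 z] fun _ => 1 :=
    ((isOpen_lt continuous_norm continuous_const).eventually_mem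
      (show ‖z‖ < 2 by linarith)).mono fun w hw => ps_one (le_of_lt hw)
  rw [dz, wd_congr e]; exact dz_const _ _

theorem cd_dz {u : ℂ → ℂ} (h : ContDiff ℝ ∞ u) : ContDiff ℝ ∞ (dz u) :=
  contDiff_iff_contDiffAt.2 fun _ => sm_dz h.contDiffAt

theorem cd_db {u : ℂ → ℂ} (h : ContDiff ℝ ∞ u) : ContDiff ℝ ∞ (db u) :=
  contDiff_iff_contDiffAt.2 fun _ => sm_db h.contDiffAt

theorem dz_ps_cut : Cut (dz ps) := by
  refine ⟨(cd_dz ps_sm).continuous, fun z hz => ?_⟩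
  have h1 : ∀ w : ℂ, 3 < ‖w‖ → dz ps w = 0 := fun w hw => by
    have e : ps =ᶠ[𝓝 w] fun _ => 0 :=
      ((isOpen_lt continuous_const continuous_norm).eventually_mem hw).mono fun x hx =>
        ps_cut.lt x hx
    rw [dz, wd_congr e]; exact dz_const _ _
  have h2 : Tendsto (fun t : ℝ => (t : ℂ) * z) (𝓝[>] 1) (𝓝 z) := by
    have : Continuous fun t : ℝ => (t : ℂ) * z := by fun_prop
    simpa using (this.tendsto 1).mono_left nhdsWithin_le_nhds
  refine tendsto_nhds_unique (((cd_dz ps_sm).continuous.tendsto z).comp h2)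
    (tendsto_const_nhds.congr' (eventually_of_mem self_mem_nhdsWithin fun t ht => (h1 _ ?_).symm))
  have ht : (1 : ℝ) < t := ht
  rw [norm_mul, norm_real, Real.norm_of_nonneg (by linarith)]
  nlinarith

theorem Sup.cut {u : ℂ → ℂ} (h : Sup u) (hc : Continuous u) : Cut u :=
  ⟨hc, fun z hz => h z (by linarith)⟩

theorem dz_mul {u v : ℂ → ℂ} {z : ℂ} (hu : DifferentiableAt ℝ u z) (hv : DifferentiableAt ℝ v z) :
    dz (fun x => u x * v x) z = dz u z * v z + u z * dz v z := wd_smul hu hv 1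

theorem db_mul {u v : ℂ → ℂ} {z : ℂ} (hu : DifferentiableAt ℝ u z) (hv : DifferentiableAt ℝ v z) :
    db (fun x => u x * v x) z = db u z * v z + u z * db v z := wb_smul hu hv 1

/-- the potential -/
def pn (v : ℂ → ℂ) : ℂ → ℂ := cT fun z => ps z * cB v z

/-- its derivative -/
def pm (v : ℂ → ℂ) : ℂ → ℂ := cT fun z => dz ps z * cB v z + v z

/-- derivatives of the cut-off potential -/
theorem pot_smooth (hC : CT) {η v : ℂ → ℂ} (hη : ContDiff ℝ ∞ η) (h0 : Sup η)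
    (hv : ContDiff ℝ ∞ v) (hv0 : Sup v) :
    ContDiff ℝ ∞ (fun z => η z * pn v z) ∧
    (dz (fun z => η z * pn v z) = fun z => dz η z * pn v z + η z * pm v z) ∧
    (db (fun z => η z * pn v z) = fun z => db η z * pn v z + η z * cB v z) ∧
    ∀ z, db (dz fun z => η z * pn v z) z =
      db (dz η) z * pn v z + dz η z * cB v z + db η z * pm v z + η z * v z := by
  obtain ⟨_, -, hh⟩ := hC ℂ 3 (by norm_num)
  have c1 : ∀ {g : ℂ → ℂ}, ContDiff ℝ ∞ g → ContDiff ℝ 1 g := fun h => contDiff_infty.1 h 1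
  have df : ∀ {g : ℂ → ℂ}, ContDiff ℝ ∞ g → ∀ z, DifferentiableAt ℝ g z := fun h z =>
    df_of h.contDiffAt
  have cv := hv0.cut hv.continuous
  obtain ⟨-, -, a1, a2⟩ := hh v cv.ct cv.lt
  have sa : ContDiff ℝ ∞ (cB v) := (a1 ⊤ hv).2
  have sg : ContDiff ℝ ∞ fun z => ps z * cB v z := ps_sm.mul sa
  have cg := ps_cut.mul sa.continuous
  obtain ⟨-, -, b1, b2⟩ := hh _ cg.ct cg.lt
  have sn : ContDiff ℝ ∞ (pn v) := (b1 ⊤ sg).1
  have eg : dz (fun z => ps z * cB v z) = fun z => dz ps z * cB v z + v z := by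
    funext z
    rw [dz_mul (df ps_sm z) (df sa z), (a2 (c1 hv)).2.2.2.1]
    by_cases h : ‖z‖ ≤ 2
    · rw [ps_one h, one_mul]
    · rw [hv0 z (by linarith [not_le.1 h]), mul_zero]
  have e1 : db (pn v) = fun z => ps z * cB v z := (b2 (c1 sg)).1
  have e2 : dz (pn v) = pm v := by rw [pm, ← eg]; exact (b2 (c1 sg)).2.2.1
  have sq : ContDiff ℝ ∞ fun z => dz ps z * cB v z + v z := ((cd_dz ps_sm).mul sa).add hv
  have cq := (dz_ps_cut.mul sa.continuous).add cv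
  have e3 : db (pm v) = fun z => dz ps z * cB v z + v z :=
    ((hh _ cq.ct cq.lt).2.2.2 (c1 sq)).1
  have sm : ContDiff ℝ ∞ (pm v) := e2 ▸ cd_dz sn
  have k1 : ∀ {c : ℂ → ℂ}, Sup c → ∀ z x, c z * (ps z * x) = c z * x := fun hc z x => by
    by_cases h : ‖z‖ ≤ 2
    · rw [ps_one h, one_mul]
    · rw [hc z (by linarith [not_le.1 h]), zero_mul, zero_mul]
  have e4 : dz (fun z => η z * pn v z) = fun z => dz η z * pn v z + η z * pm v z := by
    funext z; rw [dz_mul (df hη z) (df sn z), e2]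
  refine ⟨hη.mul sn, e4, ?_, fun z => ?_⟩
  · funext z; rw [db_mul (df hη z) (df sn z), e1, k1 h0]
  · rw [e4, db, wb_add (df ((cd_dz hη).mul sn) z) (df (hη.mul sm) z)]
    have := db_mul (df (cd_dz hη) z) (df sn z)
    have h2 := db_mul (df hη z) (df sm z)
    rw [e1, k1 h0.dz] at this
    rw [e3] at h2
    simp only [db] at this h2 ⊢
    rw [this, h2]
    by_cases h : ‖z‖ ≤ 1
    · rw [dz_ps h]; ring
    · rw [h0 z (not_le.1 h)]; ring

/-- the three local operators -/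
theorem exists_loc (hC : CT) {γ : ℂ → ℂ} (hγ : Cut γ) : ∃ La Ln Lm : B3 →L[ℂ] B3,
    IsCompactOperator La ∧ IsCompactOperator Ln ∧ IsCompactOperator Lm ∧ ∀ φ z, ‖z‖ ≤ 3 →
      lf (La φ) z = cB (fun w => γ w * lf φ w) z ∧ lf (Ln φ) z = pn (fun w => γ w * lf φ w) z ∧
      lf (Lm φ) z = pm (fun w => γ w * lf φ w) z := by
  obtain ⟨La, a1, a2⟩ := (tf_B hC).exists_op hγ
  obtain ⟨Lp, p1, p2⟩ := (tf_T hC).exists_op ps_cut
  obtain ⟨Lq, q1, q2⟩ := (tf_T hC).exists_op dz_ps_cut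
  obtain ⟨Lg, g1, g2⟩ := (tf_T hC).exists_op hγ
  have ha : ∀ φ z, ‖z‖ ≤ 3 → lf (La φ) z = cB (fun w => γ w * lf φ w) z := fun φ z hz => by
    rw [lf, a2, rt_of hz]
  have hc : ∀ {c : ℂ → ℂ}, Cut c → ∀ φ, (fun w => c w * lf (La φ) w) =
      fun w => c w * cB (fun w => γ w * lf φ w) w := fun hc φ => by
    funext w
    by_cases h : ‖w‖ ≤ 3
    · rw [ha φ w h]
    · rw [hc.lt w (not_le.1 h), zero_mul, zero_mul]
  refine ⟨La, Lp.comp La, Lq.comp La + Lg, a1, compact_comp _ a1,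
    compact_add (compact_comp _ a1) g1, fun φ z hz => ⟨ha φ z hz, ?_, ?_⟩⟩
  · rw [lf, ContinuousLinearMap.comp_apply, p2, rt_of hz, hc ps_cut, pn]
  · have cv := hγ.mul (cont_lf φ)
    rw [lf, add_apply, ContinuousMap.add_apply, ContinuousLinearMap.comp_apply,
      q2, g2, rt_of hz, hc dz_ps_cut, pm, cT_add (dz_ps_cut.mul ((tf_B hC).cont cv)) cv]

variable {C : Type} [TopologicalSpace C] [T2Space C] [CompactSpace C] (A : At C)

/-- smooth functions on the curve -/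
def Smo {F : Type} [NormedAddCommGroup F] [NormedSpace ℝ F] (w : C → F) : Prop :=
  ∀ i, ∀ z ∈ ball (0 : ℂ) A.R, ContDiffAt ℝ ∞ (loc A w i) z

/-- the square roots of the partition of unity -/
def et (j : Fin A.N) (z : ℂ) : ℂ := (A.η j z : ℝ)

theorem et_sm (j : Fin A.N) : ContDiff ℝ ∞ (et A j) := ofRealCLM.contDiff.comp (At.cd_η j)

theorem et_sup (j : Fin A.N) : Sup (et A j) := fun z hz => by
  rw [et, At.η, bp.zero_of_le_dist (by simpa [bp] using hz.le), zero_div, ofReal_zero]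

/-- the area density -/
def ro (j : Fin A.N) (z : ℂ) : ℂ := (A.ρ j z : ℝ)

variable {A}

theorem ro_sm {j : Fin A.N} {z : ℂ} (h : z ∈ ball (0 : ℂ) A.R) : ContDiffAt ℝ ∞ (ro A j) z :=
  cd_ofReal (At.sm_ρ.at h j)

theorem ro_ne {j : Fin A.N} {z : ℂ} (h : z ∈ ball (0 : ℂ) A.R) : ro A j z ≠ 0 :=
  ofReal_ne_zero.2 (At.ρ_pos h).ne'

theorem ro_tr {i j : Fin A.N} {z : ℂ} (h : z ∈ A.O i j) :
    ro A i z = normSq (A.d i j z) * ro A j (A.tr i j z) := by
  rw [ro, ro, At.dn_ρ i j z h, smul_eq_mul, ofReal_mul]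

theorem cd_sup {c u : ℂ → ℂ} {k : WithTop ℕ∞} (hc : ContDiff ℝ k c) (h0 : Sup c)
    (hu : ∀ z ∈ ball (0 : ℂ) A.R, ContDiffAt ℝ k u z) : ContDiff ℝ k fun z => c z * u z := by
  refine contDiff_iff_contDiffAt.2 fun z => ?_
  by_cases h : ‖z‖ ≤ 1
  · exact hc.contDiffAt.mul (hu z (unit_ball h))
  · exact contDiffAt_const.congr_of_eventuallyEq ((h0.mul u).ev (not_le.1 h))

theorem sum_et (x : C) : ∑ j, A.ext j (fun z => et A j z * et A j z) x = 1 := by
  have := congrArg ofReal (At.sum_ψ (A := A) x)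
  rw [ofReal_sum, ofReal_one] at this
  rw [← this]
  refine Finset.sum_congr rfl fun j _ => ?_
  by_cases h : x ∈ (A.e j).source
  · rw [At.ψ, ext_of _ h, ext_of _ h, At.χ, et]; push_cast; ring
  · rw [At.ψ, ext_not _ h, ext_not _ h, ofReal_zero]

variable (A)

/-- an additive integral which is computed in the charts -/
def LOCI : Prop := ∃ J : C(C, ℝ) →+ ℝ, ∀ (j : Fin A.N) (f : ℂ → ℝ) (G : C(C, ℝ)), Sup f →
  (∀ x, G x = A.ext j f x) → J G = ∫ z, A.ρ j z * f z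

/-- the parametrix -/
structure Par (P R : C(C, ℂ) →L[ℂ] C(C, ℂ)) (D Db : Fin A.N → C(C, ℂ) →L[ℂ] B3) : Prop where
  cP : IsCompactOperator P
  cR : IsCompactOperator R
  cD : ∀ i, IsCompactOperator (D i)
  cDb : ∀ i, IsCompactOperator (Db i)
  sm : ∀ w : C(C, ℂ), Smo A w → Smo A (P w)
  dz : ∀ w : C(C, ℂ), Smo A w → ∀ i z, ‖z‖ ≤ 1 → dz (loc A (P w) i) z = lf (D i w) z
  db : ∀ w : C(C, ℂ), Smo A w → ∀ i z, ‖z‖ ≤ 1 → db (loc A (P w) i) z = lf (Db i w) z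
  dd : ∀ w : C(C, ℂ), Smo A w → ∀ i, ∀ z ∈ ball (0 : ℂ) A.R,
    P275NA.db (P275NA.dz (loc A (P w) i)) z = ro A i z * loc A (w + R w) i z
  neg : ∀ (ι : Type) [Fintype ι] (w : ι → C(C, ℂ)),
    (∀ x, ∑ a, (P (w a) x * conj (w a x)).re = 0) → w = 0

end Vale.Agent.P275FR
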