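import Vale.Agent.P275FR.Par

/-! Construction of the parametrix. -/

set_option linter.unusedSectionVars false

open scoped Topology ComplexConjugate ContDiff
open Filter Set Metric MeasureTheory Complex
open Vale.Agent.P275NA Vale.Agent.P275GC Vale.Agent.P281Z.Hm

noncomputable section

namespace Vale.Agent.P275FR

variable {C : Type} [TopologicalSpace C] [T2Space C] [CompactSpace C] {A : At C}

theorem sup_fun {c f g : ℂ → ℂ} (hc : Sup c) (h : ∀ z, ‖z‖ ≤ 3 → f z = g z) :
    (fun z => c z * f z) = fun z => c z * g z := by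
  funext z
  by_cases hz : ‖z‖ ≤ 3
  · rw [h z hz]
  · rw [hc z (by linarith [not_le.1 hz]), zero_mul, zero_mul]

theorem sup_at {c f g : ℂ → ℂ} (hc : Sup c) (h : ∀ z, ‖z‖ ≤ 3 → f z = g z) (z : ℂ) :
    c z * f z = c z * g z := congrFun (sup_fun hc h) z

theorem Sup.div {u : ℂ → ℂ} (h : Sup u) (v : ℂ → ℂ) : Sup fun z => u z / v z :=
  fun z hz => by simp only [h z hz, zero_div]

theorem exists_par (hC : CT) (hI : LOCI A) : ∃ P R D Db, Par A P R D Db := by
  have gs : ∀ j, ContDiff ℝ ∞ fun z => et A j z * ro A j z := fun j =>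
    cd_sup (A := A) (et_sm A j) (et_sup A j) fun z hz => ro_sm hz
  have g0 : ∀ j, Sup fun z => et A j z * ro A j z := fun j => (et_sup A j).mul _
  choose La Ln Lm ca cn cm hL using fun j => exists_loc hC ((g0 j).cut (gs j).continuous)
  have cq : ∀ {c : ℂ → ℂ} (j), Continuous c → ContinuousOn (fun z => c z / ro A j z) (ball 0 A.R) :=
    fun j hc z hz => (hc.continuousAt.div (ro_sm hz).continuousAt (ro_ne hz)).continuousWithinAt
  choose G0 hG0 using fun j => exists_gl j (et_sm A j).continuous.continuousOn (et_sup A j)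
  choose G1 hG1 using fun j => exists_gl j (cq j (cd_db (cd_dz (et_sm A j))).continuous)
    ((et_sup A j).dz.db.div _)
  choose G2 hG2 using fun j => exists_gl j (cq j (cd_dz (et_sm A j)).continuous)
    ((et_sup A j).dz.div _)
  choose G3 hG3 using fun j => exists_gl j (cq j (cd_db (et_sm A j)).continuous)
    ((et_sup A j).db.div _)
  have d1 : ∀ i j, ∀ z ∈ A.O i j, ContinuousAt (A.d i j) z := fun i j z h => (At.an_d h).continuousAt
  have d2 : ∀ i j, ∀ z ∈ A.O i j, ContinuousAt (fun z => conj (A.d i j z)) z := fun i j z h =>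
    continuous_conj.continuousAt.comp (d1 i j z h)
  choose H1 hH1 using fun i j => exists_ch i j (d1 i j) (cd_dz (et_sm A j)).continuous (et_sup A j).dz
  choose H2 hH2 using fun i j => exists_ch i j (d1 i j) (et_sm A j).continuous (et_sup A j)
  choose H3 hH3 using fun i j => exists_ch i j (d2 i j) (cd_db (et_sm A j)).continuous (et_sup A j).db
  choose H4 hH4 using fun i j => exists_ch i j (d2 i j) (et_sm A j).continuous (et_sup A j)
  let v : Fin A.N → C(C, ℂ) → ℂ → ℂ := fun j w z => et A j z * ro A j z * lf (rs A j w) z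
  let u : Fin A.N → C(C, ℂ) → ℂ → ℂ := fun j w z => et A j z * pn (v j w) z
  have v0 : ∀ j w, Sup (v j w) := fun j w => (g0 j).mul _
  have vc : ∀ j w, Cut (v j w) := fun j w => ((g0 j).cut (gs j).continuous).mul (cont_lf _)
  have u0 : ∀ j w, Sup (u j w) := fun j w => (et_sup A j).mul _
  have ve : ∀ j w z, v j w z = et A j z * ro A j z * loc A w j z := fun j w z => by
    by_cases h : ‖z‖ ≤ 1
    · simp only [v, lf_rs A j w h]
    · rw [v0 j w z (not_le.1 h), et_sup A j z (not_le.1 h), zero_mul, zero_mul]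
  have vs : ∀ j (w : C(C, ℂ)), Smo A w → ContDiff ℝ ∞ (v j w) := fun j w hw => by
    rw [show v j w = fun z => et A j z * ro A j z * loc A w j z from funext (ve j w)]
    exact cd_sup (A := A) (gs j) (g0 j) (hw j)
  have ps' := fun j (w : C(C, ℂ)) (hw : Smo A w) =>
    pot_smooth hC (et_sm A j) (et_sup A j) (vs j w hw) (v0 j w)
  let P : C(C, ℂ) →L[ℂ] C(C, ℂ) := ∑ j, (G0 j).comp ((Ln j).comp (rs A j))
  have hP : ∀ w x, P w x = ∑ j, A.ext j (u j w) x := fun w x => by
    simp only [P, sum_apply, ContinuousMap.coe_sum, Finset.sum_apply, ContinuousLinearMap.comp_apply,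
      hG0]
    exact Finset.sum_congr rfl fun j _ => by
      rw [sup_fun (et_sup A j) fun z hz => (hL j _ z hz).2.1]
  have hP' : ∀ w i, loc A (P w) i = fun z => ∑ j, loc A (A.ext j (u j w)) i z := fun w i =>
    funext fun z => hP w _
  have cc : ∀ {X : Type} [TopologicalSpace X] [CompactSpace X] (G : B3 →L[ℂ] C(X, ℂ)) (j)
      {L : B3 →L[ℂ] B3}, IsCompactOperator L → IsCompactOperator (G.comp (L.comp (rs A j))) :=
    fun G j _ h => compact_comp G (compact_comp' _ h)
  have se : ∀ (w : C(C, ℂ)), Smo A w → ∀ i j, ∀ z ∈ ball (0 : ℂ) A.R,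
      ContDiffAt ℝ ∞ (loc A (A.ext j (u j w)) i) z := fun w hw i j z hz =>
    sm_ext (ps' j w hw).1 (u0 j w) hz
  have lfs : ∀ (L : Fin A.N → B3) z, lf (∑ j, L j) z = ∑ j, lf (L j) z := fun L z => by
    simp [lf]
  have lfa : ∀ (L L' : B3) z, lf (L + L') z = lf L z + lf L' z := fun L L' z => rfl
  refine ⟨P, ∑ j, ((G1 j).comp ((Ln j).comp (rs A j)) + (G2 j).comp ((La j).comp (rs A j)) +
      (G3 j).comp ((Lm j).comp (rs A j))),
    fun i => ∑ j, ((H1 i j).comp ((Ln j).comp (rs A j)) + (H2 i j).comp ((Lm j).comp (rs A j))),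
    fun i => ∑ j, ((H3 i j).comp ((Ln j).comp (rs A j)) + (H4 i j).comp ((La j).comp (rs A j))),
    compact_sum _ _ fun j _ => cc _ j (cn j),
    compact_sum _ _ fun j _ => compact_add (compact_add (cc _ j (cn j)) (cc _ j (ca j)))
      (cc _ j (cm j)),
    fun i => compact_sum _ _ fun j _ => compact_add (cc _ j (cn j)) (cc _ j (cm j)),
    fun i => compact_sum _ _ fun j _ => compact_add (cc _ j (cn j)) (cc _ j (ca j)),
    fun w hw i z hz => ?_, fun w hw i z hz => ?_, fun w hw i z hz => ?_, fun w hw i z hz => ?_,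
    fun ι _ w hw => ?_⟩
  · rw [hP']; exact ContDiffAt.sum fun j _ => se w hw i j z hz
  · rw [hP', dz, wd_sum _ fun j _ => df_of (se w hw i j z (unit_ball hz)), sum_apply, lfs]
    refine Finset.sum_congr rfl fun j _ => ?_
    rw [add_apply, lfa, ContinuousLinearMap.comp_apply, ContinuousLinearMap.comp_apply (H2 i j),
      hH1 _ _ _ _ hz, hH2 _ _ _ _ hz]
    refine (dz_ext (ps' j w hw).1 (u0 j w) (unit_ball hz)).trans ?_
    by_cases h : z ∈ A.O i j
    · simp only [indicator_of_mem h, (ps' j w hw).2.1, ContinuousLinearMap.comp_apply, smul_eq_mul]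
      rw [sup_at (et_sup A j).dz fun z hz => (hL j _ z hz).2.1,
        sup_at (et_sup A j) fun z hz => (hL j _ z hz).2.2, mul_add]
    · simp only [indicator_of_notMem h, add_zero]
  · rw [hP', db, wb_sum _ fun j _ => df_of (se w hw i j z (unit_ball hz)), sum_apply, lfs]
    refine Finset.sum_congr rfl fun j _ => ?_
    rw [add_apply, lfa, ContinuousLinearMap.comp_apply, ContinuousLinearMap.comp_apply (H4 i j),
      hH3 _ _ _ _ hz, hH4 _ _ _ _ hz]
    refine (db_ext (ps' j w hw).1 (u0 j w) (unit_ball hz)).trans ?_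
    by_cases h : z ∈ A.O i j
    · simp only [indicator_of_mem h, (ps' j w hw).2.2.1, ContinuousLinearMap.comp_apply, smul_eq_mul]
      rw [sup_at (et_sup A j).db fun z hz => (hL j _ z hz).2.1,
        sup_at (et_sup A j) fun z hz => (hL j _ z hz).1, mul_add]
    · simp only [indicator_of_notMem h, add_zero]
  · have e : dz (loc A (P w) i) =ᶠ[𝓝 z] fun y => ∑ j, dz (loc A (A.ext j (u j w)) i) y :=
      eventually_of_mem (isOpen_ball.mem_nhds hz) fun y hy => by
        rw [hP', dz, wd_sum _ fun j _ => df_of (se w hw i j y hy)]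
    rw [db, wb_congr e, wb_sum _ fun j _ => df_of (sm_dz (se w hw i j z hz))]
    have e1 : loc A (⇑w) i z = ∑ j, A.ext j (fun z => et A j z * et A j z) ((A.e i).symm z) *
        loc A w i z := by rw [← Finset.sum_mul, sum_et, one_mul]
    simp only [loc, ContinuousMap.add_apply, sum_apply, ContinuousMap.coe_sum, Finset.sum_apply,
      add_apply, ContinuousLinearMap.comp_apply, hG1, hG2, hG3] at e1 ⊢
    rw [e1, ← Finset.sum_add_distrib, Finset.mul_sum]
    refine Finset.sum_congr rfl fun j _ => (dd_ext (ps' j w hw).1 (u0 j w) hz).trans ?_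
    by_cases h : z ∈ A.O i j
    · have hn := ro_ne (j := j) (At.tr_ball h)
      rw [indicator_of_mem h, (ps' j w hw).2.2.2, At.ext_tr h, At.ext_tr h, At.ext_tr h, At.ext_tr h,
        sup_at ((et_sup A j).dz.db.div _) fun z hz => (hL j _ z hz).2.1,
        sup_at ((et_sup A j).dz.div _) fun z hz => (hL j _ z hz).1,
        sup_at ((et_sup A j).db.div _) fun z hz => (hL j _ z hz).2.2, ro_tr h, ve, loc_tr _ h]
      simp only [loc, smul_eq_mul, v]
      field_simp
      ring
    · have h' : (A.e i).symm z ∉ (A.e j).source := fun h' => h ⟨hz, h'⟩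
      simp only [indicator_of_notMem h, ext_not _ h', zero_mul, add_zero, mul_zero]
  · obtain ⟨J, hJ⟩ := hI
    have pc : ∀ j w, Continuous (pn (v j w)) := fun j w =>
      (tf_T hC).cont (ps_cut.mul ((tf_B hC).cont (vc j w)))
    let f : ι → Fin A.N → ℂ → ℝ := fun a j z => (u j (w a) z * conj (loc A (w a) j z)).re
    have f0 : ∀ a j, Sup (f a j) := fun a j z hz => by simp only [f, u0 j _ z hz, zero_mul, zero_re]
    have fc : ∀ a j, Continuous (A.ext j (f a j)) := fun a j =>
      cont_ext j (continuous_re.comp_continuousOn ((((et_sm A j).continuous.mul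
        (pc j _)).continuousOn).mul (continuous_conj.comp_continuousOn
          (At.ct_pl (w a).continuous j)))) (f0 a j)
    have h1 : ∑ a, ∑ j, (⟨_, fc a j⟩ : C(C, ℝ)) = 0 := by
      ext x
      rw [ContinuousMap.zero_apply, ← hw x]
      simp only [ContinuousMap.coe_sum, Finset.sum_apply, ContinuousMap.coe_mk, hP, Finset.sum_mul,
        re_sum]
      refine Finset.sum_congr rfl fun a _ => Finset.sum_congr rfl fun j _ => ?_
      by_cases h : x ∈ (A.e j).source
      · simp only [ext_of _ h, f, loc_e _ h]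
      · simp only [ext_not _ h, zero_mul, zero_re]
    have h2 : ∀ a j, J ⟨_, fc a j⟩ = -∫ z, bq z * ‖cB (v j (w a)) z‖ ^ 2 := fun a j => by
      have h3 := congrArg re (pot_form (ψ := bq) hC ps_cut (vc j (w a)))
      have h4 : Integrable fun z => pn (v j (w a)) z * conj (v j (w a) z) := by
        simpa only [mul_comm] using ((vc j (w a)).conj.mul (pc j (w a))).int
      rw [neg_re, ofReal_re] at h3
      rw [hJ j _ _ (f0 a j) fun _ => rfl, ← h3]
      refine Eq.trans (b := ∫ z, reCLM (pn (v j (w a)) z * conj (v j (w a) z))) ?_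
        (reCLM.integral_comp_comm h4)
      congr 1
      funext z
      simp only [f, u, ve, et, ro, map_mul, conj_ofReal, reCLM_apply, ← re_ofReal_mul]
      congr 1; ring
    have h3 := congrArg J h1
    simp only [map_sum, h2, map_zero, Finset.sum_neg_distrib, neg_eq_zero] at h3
    have h4 : ∀ a j, 0 ≤ ∫ z, bq z * ‖cB (v j (w a)) z‖ ^ 2 := fun a j =>
      integral_nonneg fun z => mul_nonneg bq.nonneg (sq_nonneg _)
    funext a
    ext x
    obtain ⟨j, hj, hx⟩ := A.cov x
    have h5 := (Finset.sum_eq_zero_iff_of_nonneg fun j _ => h4 a j).1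
      ((Finset.sum_eq_zero_iff_of_nonneg fun a _ => Finset.sum_nonneg fun j _ => h4 a j).1 h3 a
        (Finset.mem_univ a)) j (Finset.mem_univ j)
    have h6 := pot_zero (ψ := bq) hC ps_cut (vc j (w a)) (fun _ => bq.nonneg) h5 (z := A.e j x)
      (fun h => by simpa [ps, h] using ps_one (z := A.e j x) (by linarith))
    rw [ve, loc_e _ hj] at h6
    exact (mul_eq_zero.1 h6).resolve_left (mul_ne_zero (ofReal_ne_zero.2 (At.η_pos hx).ne')
      (ro_ne (At.map_src hj)))

end Vale.Agent.P275FR
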